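import Crest.Agent.H0082.Monge

/-! Discretisation of a coupling, and the stability estimate. -/

set_option autoImplicit false

namespace Crest.Agent.H0082

open MeasureTheory Set Filter Topology Crest.AnalysisR.OT ProbabilityTheory
open scoped ENNReal NNReal RealInnerProductSpace

variable {d : ℕ}

lemma exists_disj {α κ : Type*} [MeasurableSpace α] [Fintype κ] (B : κ → Set α)
    (hB : ∀ k, MeasurableSet (B k)) :
    ∃ P : κ → Set α, (∀ k, MeasurableSet (P k)) ∧ (∀ k, P k ⊆ B k) ∧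
      Pairwise (Function.onFun Disjoint P) ∧ ⋃ k, P k = ⋃ k, B k := by
  classical
  set e := Fintype.equivFin κ
  refine ⟨fun k => B k \ ⋃ j : {j // e j < e k}, B j, fun k => (hB k).diff
    (MeasurableSet.iUnion fun j => hB j), fun k => sdiff_subset, fun i j hij => ?_, ?_⟩
  · rw [Function.onFun, Set.disjoint_left]
    rintro x ⟨h1, h2⟩ ⟨h3, h4⟩
    rcases lt_trichotomy (e i) (e j) with hh | hh | hh
    · exact h4 (mem_iUnion.2 ⟨⟨i, hh⟩, h1⟩)
    · exact hij (e.injective hh)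
    · exact h2 (mem_iUnion.2 ⟨⟨j, hh⟩, h3⟩)
  · refine Subset.antisymm (iUnion_mono fun k => sdiff_subset) fun x hx => ?_
    obtain ⟨k, hk⟩ := mem_iUnion.1 hx
    obtain ⟨i, hi, hmin⟩ := Finset.exists_min_image (Finset.univ.filter fun j => x ∈ B j) e
      ⟨k, by simpa using hk⟩
    refine mem_iUnion.2 ⟨i, by simpa using hi, fun hh => ?_⟩
    obtain ⟨j, hj⟩ := mem_iUnion.1 hh
    exact absurd (hmin j (by simpa using hj)) (not_le.2 j.2)

lemma exists_disc {α : Type} [PseudoMetricSpace α] [MeasurableSpace α] [OpensMeasurableSpace α]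
    (π : Measure α) [IsProbabilityMeasure π] {Z : Set α} (hZ : IsCompact Z)
    (hπ : ∀ᵐ p ∂π, p ∈ Z) {δ : ℝ} (hδ : 0 < δ) :
    ∃ (ι : Type) (_ : Fintype ι) (_ : Nonempty ι) (c : ι → α) (πi : ι → Measure α),
      (∀ i, c i ∈ Z) ∧ ∑ i, πi i = π ∧ (∀ i, πi i univ ≠ 0) ∧
      ∀ i, ∀ᵐ p ∂(πi i), dist p (c i) ≤ δ := by
  classical
  obtain ⟨t, htZ, ht, hcov⟩ := hZ.finite_cover_balls hδ
  have := ht.fintype
  obtain ⟨P, hP, hPB, hPd, hPU⟩ := exists_disj (fun k : t => Metric.ball (k : α) δ)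
    (fun k => Metric.isOpen_ball.measurableSet)
  have hsum : ∑ k, π.restrict (P k) = π := by
    rw [← Measure.sum_fintype, ← Measure.restrict_iUnion hPd hP, hPU]
    refine Measure.restrict_eq_self_of_ae_mem ?_
    filter_upwards [hπ] with p hp
    simpa using hcov hp
  have hsum2 : ∑ k : {k : t // π (P k) ≠ 0}, π.restrict (P k) = π := by
    rw [← Finset.sum_subtype (Finset.univ.filter fun k : t => π (P k) ≠ 0) (by simp)
      (fun k => π.restrict (P k))]
    conv_rhs => rw [← hsum]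
    refine Finset.sum_subset (Finset.subset_univ _) fun k _ hk => ?_
    simpa using hk
  have hne : Nonempty {k : t // π (P k) ≠ 0} := by
    by_contra hh
    rw [not_nonempty_iff] at hh
    have : π = 0 := by rw [← hsum2]; simp
    exact IsProbabilityMeasure.ne_zero π this
  refine ⟨{k : t // π (P k) ≠ 0}, inferInstance, hne, fun k => k.1.1,
    fun k => π.restrict (P k), fun k => htZ k.1.2, hsum2, fun k => by simpa using k.2, fun k => ?_⟩
  filter_upwards [ae_restrict_mem (hP k)] with p hp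
  exact (Metric.mem_ball.1 (hPB k hp)).le

lemma exists_perturb {ι : Type*} [Fintype ι] (hd : 0 < d) (a b : ι → E d) {δ : ℝ} (hδ : 0 < δ) :
    ∃ p : ι → E d, (∀ i, ‖p i‖ ≤ δ) ∧
      ∀ q : ℚ, Function.Injective (path (fun i => a i + p i) (fun i => b i + p i) q) := by
  set e := Fintype.equivFin ι
  set v : E d := EuclideanSpace.single ⟨0, hd⟩ 1 with hv
  have hv1 : ‖v‖ = 1 := by rw [hv]; simp
  have hv0 : v ≠ 0 := by rw [← norm_ne_zero_iff, hv1]; simp
  set n : ℝ := Fintype.card ι + 1 with hn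
  have hn0 : 0 < n := by positivity
  set c : ι → ℝ := fun i => ((e i : ℕ) : ℝ) with hc
  have hcn : ∀ i, c i ≤ n := fun i => by
    have : ((e i : ℕ) : ℝ) ≤ Fintype.card ι := by exact_mod_cast (e i).2.le
    simp only [hc, hn]; linarith
  have hcinj : Function.Injective c := fun i j hij =>
    e.injective (Fin.ext (by simpa [hc] using hij))
  set bad : Set ℝ := ⋃ q : ℚ, ⋃ i, ⋃ j, {τ | i ≠ j ∧
    path a b q i + (τ * c i) • v = path a b q j + (τ * c j) • v} with hbad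
  have hcount : bad.Countable := by
    refine countable_iUnion fun q => countable_iUnion fun i => countable_iUnion fun j =>
      Set.Subsingleton.countable ?_
    rintro s ⟨hij, hs⟩ t ⟨-, ht⟩
    have h1 : ((s - t) * (c i - c j)) • v = 0 := by
      have : ((s - t) * (c i - c j)) • v =
          (path a b q i + (s * c i) • v - (path a b q j + (s * c j) • v)) -
          (path a b q i + (t * c i) • v - (path a b q j + (t * c j) • v)) := by module
      rw [this, hs, ht]; simp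
    rcases smul_eq_zero.1 h1 with h2 | h2
    · rcases mul_eq_zero.1 h2 with h3 | h3
      · linarith
      · exact absurd (hcinj (sub_eq_zero.1 h3)) hij
    · exact absurd h2 hv0
  obtain ⟨τ, hτ, hτb⟩ : ∃ τ ∈ Ioo 0 (δ / n), τ ∉ bad := by
    by_contra hh
    push Not at hh
    have h1 : volume (Ioo 0 (δ / n)) = 0 := measure_mono_null hh (hcount.measure_zero _)
    rw [Real.volume_Ioo, ENNReal.ofReal_eq_zero, sub_zero] at h1
    exact absurd h1 (not_le.2 (by positivity))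
  refine ⟨fun i => (τ * c i) • v, fun i => ?_, fun q i j hij => ?_⟩
  · have h0 : 0 ≤ c i := Nat.cast_nonneg _
    rw [norm_smul, hv1, mul_one, Real.norm_of_nonneg (mul_nonneg hτ.1.le h0)]
    have := (lt_div_iff₀ hn0).1 hτ.2
    nlinarith [hcn i, hτ.1]
  · by_contra hne
    refine hτb (mem_iUnion.2 ⟨q, mem_iUnion.2 ⟨i, mem_iUnion.2 ⟨j, hne, ?_⟩⟩⟩)
    have e1 : ∀ k, path (fun i => a i + (τ * c i) • v) (fun i => b i + (τ * c i) • v) q k =
        path a b q k + (τ * c k) • v := fun k => by simp only [path]; module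
    rw [← e1, ← e1]; exact hij

lemma pot_convex {ι : Type*} [Fintype ι] [Nonempty ι] (y : ι → E d) (ψ : ι → ℝ) (x w : E d) :
    0 ≤ pot y ψ (x + w) + pot y ψ (x - w) - 2 * pot y ψ x := by
  obtain ⟨i, hi⟩ := exists_lag y ψ x
  have h1 := le_pot y ψ (x + w) i
  have h2 := le_pot y ψ (x - w) i
  rw [inner_add_left] at h1
  rw [inner_sub_left] at h2
  rw [pot_eq hi]; linarith

lemma pot_lipx {ι : Type*} [Fintype ι] [Nonempty ι] {y : ι → E d} {R : ℝ} (hy : ∀ i, ‖y i‖ ≤ R)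
    (ψ : ι → ℝ) (x w : E d) : |pot y ψ (x + w) - pot y ψ x| ≤ R * ‖w‖ := by
  obtain ⟨i, hi⟩ := exists_lag y ψ x
  obtain ⟨j, hj⟩ := exists_lag y ψ (x + w)
  have h1 := le_pot y ψ (x + w) i
  have h2 := le_pot y ψ x j
  have h3 := abs_le.1 ((abs_real_inner_le_norm w (y i)).trans
    (mul_le_mul_of_nonneg_left (hy i) (norm_nonneg _)))
  have h4 := abs_le.1 ((abs_real_inner_le_norm w (y j)).trans
    (mul_le_mul_of_nonneg_left (hy j) (norm_nonneg _)))
  rw [abs_le]
  constructor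
  · rw [pot_eq hi]; rw [inner_add_left] at h1; linarith
  · rw [pot_eq hj, inner_add_left]; linarith

theorem stab_delta {ρ μ ν : Measure (E d)} {R : ℝ} (h : Src ρ R) (hd : 0 < d) {K : Set (E d)}
    {c : ℝ} (hK : Shrink ρ K c) (hKR : ∀ x ∈ K, ‖x‖ ≤ R) {Y : Set (E d)} (hY : IsCompact Y)
    (hYR : ∀ w ∈ Y, ‖w‖ + 1 ≤ R) (hμ : ∀ᵐ w ∂μ, w ∈ Y) (hν : ∀ᵐ w ∂ν, w ∈ Y)
    {T S : E d → E d} (hT : IsOptimalMap ρ μ T) (hS : IsOptimalMap ρ ν S)
    {π : Measure (E d × E d)} (hπ : IsPairCoupling μ ν π) {s : ℝ} (hs : 0 < s) {δ : ℝ}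
    (hδ : 0 < δ) (hδ1 : δ ≤ 1) :
    ∫ x, ‖T x - S x‖ ^ 2 ∂ρ ≤ 2 * d *
      (4 * (120006 * R ^ 2 * (2 * ∫ p, ‖p.1 - p.2‖ ^ 2 ∂π + 8 * δ ^ 2)) / s ^ 2 +
        12 * R ^ 2 * c * s + 4 * R * ((1 + 8 * R) * δ) / s) := by
  have := h.prob
  have hR := h.pos
  have : IsProbabilityMeasure μ := hT.2.1 ▸ Measure.isProbabilityMeasure_map hT.1.aemeasurable
  have : IsProbabilityMeasure π := ⟨by
    have := congrArg (fun m : Measure (E d) => m univ) hπ.1
    simpa [Measure.map_apply measurable_fst MeasurableSet.univ] using this⟩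
  have hμR : ∀ᵐ w ∂μ, ‖w‖ ≤ R := hμ.mono fun w hw => by linarith [hYR w hw]
  have hνR : ∀ᵐ w ∂ν, ‖w‖ ≤ R := hν.mono fun w hw => by linarith [hYR w hw]
  have hπ1 : ∀ᵐ p ∂π, p.1 ∈ Y := by
    rw [← hπ.1] at hμ; exact ae_of_ae_map measurable_fst.aemeasurable hμ
  have hπ2 : ∀ᵐ p ∂π, p.2 ∈ Y := by
    rw [← hπ.2] at hν; exact ae_of_ae_map measurable_snd.aemeasurable hν
  obtain ⟨ι, _, _, cc, πi, hcc, hsum, hpos, hclose⟩ := exists_disc π (hY.prod hY)
    (by filter_upwards [hπ1, hπ2] with p h1 h2 using ⟨h1, h2⟩) hδ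
  obtain ⟨p, hp, hinj⟩ := exists_perturb hd (fun i => (cc i).1) (fun i => (cc i).2) hδ
  set y : ι → E d := fun i => (cc i).1 + p i with hy
  set z : ι → E d := fun i => (cc i).2 + p i with hz
  have hle : ∀ i, πi i ≤ π := fun i => by
    rw [← hsum]
    exact Finset.single_le_sum (f := πi) (fun _ _ => bot_le) (Finset.mem_univ i)
  have hfin : ∀ i, IsFiniteMeasure (πi i) := fun i => isFiniteMeasure_of_le π (hle i)
  set m : ι → ℝ := fun i => (πi i).real univ with hm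
  have hm0 : ∀ i, 0 < m i := fun i => ENNReal.toReal_pos (hpos i) (measure_ne_top _ _)
  have hms : ∑ i, m i = 1 := by
    have := congrArg (fun m : Measure (E d × E d) => m.real univ) hsum
    simp only [probReal_univ] at this
    rw [← this, Measure.real, Measure.finsetSum_apply,
      ENNReal.toReal_sum fun i _ => measure_ne_top _ _]
    rfl
  have p0 : path y z ((0 : ℚ) : ℝ) = y := by funext i; simp [path]
  have p1 : path y z ((1 : ℚ) : ℝ) = z := by funext i; simp [path]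
  have hyi : Function.Injective y := p0 ▸ hinj 0
  have hzi : Function.Injective z := p1 ▸ hinj 1
  have hyR : ∀ i, ‖y i‖ ≤ R := fun i =>
    (norm_add_le _ _).trans (by linarith [hYR _ (hcc i).1, hp i])
  have hzR : ∀ i, ‖z i‖ ≤ R := fun i =>
    (norm_add_le _ _).trans (by linarith [hYR _ (hcc i).2, hp i])
  obtain ⟨ψ₀, s1⟩ := exists_sol h hyi hm0 hms
  obtain ⟨χ, s3⟩ := exists_sol h hzi hm0 hms
  obtain ⟨ψ, hψ1, hψ2⟩ := pot_stab h hinj hyR hzR hm0 hms s1 s3 hδ
  have c1 : ∀ i, ∀ᵐ q ∂(πi i), ‖q.1 - (cc i).1‖ ≤ δ ∧ ‖q.2 - (cc i).2‖ ≤ δ := fun i => by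
    filter_upwards [hclose i] with q hq
    rw [Prod.dist_eq, max_le_iff, dist_eq_norm, dist_eq_norm] at hq
    exact hq
  obtain ⟨η₁, i1, n1, g1, b1⟩ := gap h hd hT hμR hyi hm0 s1 (μi := fun i => (πi i).map Prod.fst)
    (by rw [← Measure.map_finset_sum' measurable_fst.aemeasurable, hsum, hπ.1])
    (fun i => by
      rw [Measure.map_apply measurable_fst MeasurableSet.univ, preimage_univ, ofReal_measureReal])
    (δ := 2 * δ) (fun i => by
      refine (ae_map_iff measurable_fst.aemeasurable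
        (measurableSet_le (by fun_prop) (by fun_prop))).2 ?_
      filter_upwards [c1 i] with q hq
      have := norm_sub_le (q.1 - (cc i).1) (p i)
      rw [sub_sub] at this
      linarith [hq.1, hp i]) ψ
  obtain ⟨η₂, i2, n2, g2, b2⟩ := gap h hd hS hνR hzi hm0 s3 (μi := fun i => (πi i).map Prod.snd)
    (by rw [← Measure.map_finset_sum' measurable_snd.aemeasurable, hsum, hπ.2])
    (fun i => by
      rw [Measure.map_apply measurable_snd MeasurableSet.univ, preimage_univ, ofReal_measureReal])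
    (δ := 2 * δ) (fun i => by
      refine (ae_map_iff measurable_snd.aemeasurable
        (measurableSet_le (by fun_prop) (by fun_prop))).2 ?_
      filter_upwards [c1 i] with q hq
      have := norm_sub_le (q.2 - (cc i).2) (p i)
      rw [sub_sub] at this
      linarith [hq.2, hp i]) χ
  have key := interp h hK hT.1 hS.1 (ae_bdd_of_map hT.1 hT.2.1 hμR)
    (ae_bdd_of_map hS.1 hS.2.1 hνR) (pot_cont y ψ) (pot_cont z χ) (pot_convex z χ)
    (pot_lipx hzR χ) i1 i2 n1 n2 (Eventually.of_forall fun x x' hx' => g1 x x' (hKR x' hx'))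
    (Eventually.of_forall fun x x' hx' => g2 x x' (hKR x' hx')) hs
  have iπ : Integrable (fun q : E d × E d => ‖q.1 - q.2‖ ^ 2) π :=
    int_sq_of_bdd measurable_fst measurable_snd (R := R)
      (hπ1.mono fun w hw => by linarith [hYR _ hw]) (hπ2.mono fun w hw => by linarith [hYR _ hw])
  have hW : ∑ i, m i * ‖y i - z i‖ ^ 2 ≤ 2 * ∫ q, ‖q.1 - q.2‖ ^ 2 ∂π + 8 * δ ^ 2 := by
    conv_rhs => rw [← hsum, ← one_mul (8 * δ ^ 2), ← hms]
    rw [integral_finsetSum_measure fun i _ => iπ.mono_measure (hle i), Finset.mul_sum,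
      Finset.sum_mul, ← Finset.sum_add_distrib]
    refine Finset.sum_le_sum fun i _ => ?_
    have h1 : ∫ _, ‖y i - z i‖ ^ 2 ∂(πi i) ≤ ∫ q, (2 * ‖q.1 - q.2‖ ^ 2 + 8 * δ ^ 2) ∂(πi i) := by
      refine integral_mono_ae (integrable_const _)
        (((iπ.mono_measure (hle i)).const_mul 2).add (integrable_const _)) ?_
      filter_upwards [c1 i] with q hq
      have e : y i - z i = (q.1 - q.2) - (q.1 - (cc i).1) + (q.2 - (cc i).2) := by
        simp only [hy, hz]; abel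
      have h2 : ‖y i - z i‖ ≤ ‖q.1 - q.2‖ + 2 * δ := by
        rw [e]
        refine (norm_add_le _ _).trans ?_
        linarith [norm_sub_le (q.1 - q.2) (q.1 - (cc i).1), hq.1, hq.2]
      refine (pow_le_pow_left₀ (norm_nonneg _) h2 2).trans ?_
      nlinarith [sq_nonneg (‖q.1 - q.2‖ - 2 * δ)]
    rw [integral_add ((iπ.mono_measure (hle i)).const_mul 2) (integrable_const _),
      integral_const_mul, integral_const, integral_const] at h1
    exact h1
  refine key.trans ?_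
  have h3 : ∫ x, (pot y ψ x - pot z χ x) ^ 2 ∂ρ ≤
      120006 * R ^ 2 * (2 * ∫ q, ‖q.1 - q.2‖ ^ 2 ∂π + 8 * δ ^ 2) := hψ2.trans (by gcongr)
  have h4 : ∫ x, η₁ x ∂ρ + ∫ x, η₂ x ∂ρ ≤ (1 + 8 * R) * δ := by linarith
  gcongr

theorem stab {ρ μ ν : Measure (E d)} {R : ℝ} (h : Src ρ R) (hd : 0 < d) {K : Set (E d)}
    {c : ℝ} (hK : Shrink ρ K c) (hKR : ∀ x ∈ K, ‖x‖ ≤ R) {Y : Set (E d)}
    (hY : IsCompact Y)
    (hYR : ∀ w ∈ Y, ‖w‖ + 1 ≤ R) (hμ : ∀ᵐ w ∂μ, w ∈ Y) (hν : ∀ᵐ w ∂ν, w ∈ Y)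
    {T S : E d → E d} (hT : IsOptimalMap ρ μ T) (hS : IsOptimalMap ρ ν S)
    {π : Measure (E d × E d)} (hπ : IsPairCoupling μ ν π) :
    ∫ x, ‖T x - S x‖ ^ 2 ∂ρ ≤ 2 * d * (8 * 120006 * R ^ 2 + 12 * R ^ 2 * c) *
      (∫ p, ‖p.1 - p.2‖ ^ 2 ∂π) ^ (1 / 3 : ℝ) := by
  set W := ∫ p, ‖p.1 - p.2‖ ^ 2 ∂π with hW
  have hW0 : 0 ≤ W := integral_nonneg fun _ => sq_nonneg _
  have h1 : ∀ s : ℝ, 0 < s → ∫ x, ‖T x - S x‖ ^ 2 ∂ρ ≤
      2 * d * (4 * (120006 * R ^ 2 * (2 * W)) / s ^ 2 + 12 * R ^ 2 * c * s) := by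
    intro s hs
    have hc : Continuous fun δ : ℝ => 2 * d *
      (4 * (120006 * R ^ 2 * (2 * W + 8 * δ ^ 2)) / s ^ 2 +
        12 * R ^ 2 * c * s + 4 * R * ((1 + 8 * R) * δ) / s) := by fun_prop
    have ht := (hc.tendsto 0).mono_left (nhdsWithin_le_nhds (s := Ioi 0))
    simp only [ne_eq, OfNat.ofNat_ne_zero, not_false_eq_true, zero_pow, mul_zero, add_zero,
      zero_div] at ht
    refine ge_of_tendsto ht ?_
    filter_upwards [Ioc_mem_nhdsGT (show (0 : ℝ) < 1 by norm_num)] with δ hδ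
    exact stab_delta h hd hK hKR hY hYR hμ hν hT hS hπ hs hδ.1 hδ.2
  rcases hW0.eq_or_lt with h0 | h0
  · rw [← h0, Real.zero_rpow (by norm_num), mul_zero]
    have hc : Continuous fun s : ℝ => 2 * d * (12 * R ^ 2 * c * s) := by fun_prop
    have ht := (hc.tendsto 0).mono_left (nhdsWithin_le_nhds (s := Ioi 0))
    simp only [mul_zero] at ht
    refine ge_of_tendsto ht ?_
    filter_upwards [self_mem_nhdsWithin] with s hs
    have := h1 s hs
    rw [← h0] at this
    simpa using this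
  · set s := W ^ (1 / 3 : ℝ) with hs
    have hs0 : 0 < s := Real.rpow_pos_of_pos h0 _
    have hs3 : W = s ^ 3 := by
      rw [hs, ← Real.rpow_natCast, ← Real.rpow_mul hW0]; norm_num
    refine (h1 s hs0).trans (le_of_eq ?_)
    conv_lhs => rw [hs3]
    field_simp; ring

end Crest.Agent.H0082
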