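import Crest.Agent.H0082.Mix

/-! Finite-difference interpolation between potentials and (approximate) gradients. -/

set_option autoImplicit false

namespace Crest.Agent.H0082

open MeasureTheory Set Filter Topology Crest.AnalysisR.OT
open scoped ENNReal NNReal RealInnerProductSpace

variable {d : ℕ}

/-- Inner parallel sets with small complement and a translation inequality. -/
def Shrink (ρ : Measure (E d)) (K : Set (E d)) (c : ℝ) : Prop :=
  ∀ s : ℝ, 0 < s → ∃ K' : Set (E d), MeasurableSet K' ∧ ρ.real K'ᶜ ≤ c * s ∧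
    (∀ x ∈ K', ∀ w : E d, ‖w‖ ≤ s → x + w ∈ K) ∧
    ∀ f : E d → ℝ, Continuous f → (∀ x, 0 ≤ f x) → ∀ w : E d, ‖w‖ ≤ s →
      ∫ x in K', f (x + w) ∂ρ ≤ ∫ x, f x ∂ρ

lemma transl {K K' : Set (E d)} (hKc : IsCompact K) (hK' : MeasurableSet K') {w : E d}
    (hw : ∀ x ∈ K', x + w ∈ K) {f : E d → ℝ} (hf : Continuous f) (hf0 : ∀ x, 0 ≤ f x) :
    ∫ x in K', f (x + w) ∂(uniformProbOn K) ≤ ∫ x, f x ∂(uniformProbOn K) := by
  unfold uniformProbOn
  rw [Measure.restrict_smul, integral_smul_measure, integral_smul_measure]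
  refine smul_le_smul_of_nonneg_left ?_ ENNReal.toReal_nonneg
  rw [Measure.restrict_restrict hK', ← integral_indicator (hK'.inter hKc.measurableSet),
    ← integral_indicator hKc.measurableSet, ← integral_add_right_eq_self (K.indicator f) w]
  have hi : Integrable (K.indicator f) :=
    (integrable_indicator_iff hKc.measurableSet).2 (hf.continuousOn.integrableOn_compact hKc)
  refine integral_mono_of_nonneg (Eventually.of_forall fun x => ?_) (hi.comp_add_right w)
    (Eventually.of_forall fun x => ?_)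
  · exact indicator_nonneg (fun x _ => hf0 _) x
  · by_cases hx : x ∈ K' ∩ K
    · simp only
      rw [indicator_of_mem hx, indicator_of_mem (hw x hx.1)]
    · simp only
      rw [indicator_of_notMem hx]
      exact indicator_nonneg (fun x _ => hf0 _) _

lemma shrink_uniform {K : Set (E d)} (hKc : IsCompact K) (hKv : Convex ℝ K)
    (hKi : (interior K).Nonempty) : ∃ c, 0 < c ∧ Shrink (uniformProbOn K) K c := by
  have h0 : volume K ≠ 0 := (Measure.measure_pos_of_nonempty_interior _ hKi).ne'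
  have h1 : volume K ≠ ⊤ := hKc.measure_lt_top.ne
  have : IsProbabilityMeasure (uniformProbOn K) :=
    ⟨by simp [uniformProbOn, ENNReal.inv_mul_cancel h0 h1]⟩
  obtain ⟨x₀, hx₀⟩ := hKi
  obtain ⟨r, hr, hrK⟩ := Metric.nhds_basis_closedBall.mem_iff.1 (mem_interior_iff_mem_nhds.1 hx₀)
  refine ⟨(d + 1) / r, by positivity, fun s hs => ?_⟩
  by_cases hsr : r ≤ s
  · refine ⟨∅, MeasurableSet.empty, ?_, by simp, fun f hf hf0 w _ => ?_⟩
    · simp only [compl_empty, probReal_univ]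
      rw [div_mul_eq_mul_div, le_div_iff₀ hr]
      nlinarith [Nat.cast_nonneg (α := ℝ) d]
    · simpa using integral_nonneg hf0
  push Not at hsr
  set l := s / r with hl
  have hl0 : 0 < l := by positivity
  have hl1 : l < 1 := by rw [hl, div_lt_one hr]; exact hsr
  set K' := AffineMap.homothety x₀ (1 - l) '' K with hK'
  have hK'c : IsCompact K' := hKc.image (AffineMap.homothety_continuous _ _)
  have hw : ∀ x ∈ K', ∀ w : E d, ‖w‖ ≤ s → x + w ∈ K := by
    rintro _ ⟨x, hx, rfl⟩ w hw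
    have h2 : x₀ + l⁻¹ • w ∈ K := by
      apply hrK
      rw [mem_closedBall_iff_norm, add_sub_cancel_left, norm_smul, norm_inv,
        Real.norm_of_nonneg hl0.le, inv_mul_le_iff₀ hl0, hl, div_mul_cancel₀ _ hr.ne']
      exact hw
    have h3 := hKv hx h2 (a := 1 - l) (b := l) (by linarith) hl0.le (by ring)
    convert h3 using 1
    rw [AffineMap.homothety_apply, smul_add, smul_smul, mul_inv_cancel₀ hl0.ne', one_smul]
    simp only [vsub_eq_sub, vadd_eq_add]
    module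
  refine ⟨K', hK'c.measurableSet, ?_, hw, fun f hf hf0 w hws =>
    transl hKc hK'c.measurableSet (fun x hx => hw x hx w hws) hf hf0⟩
  rw [measureReal_compl hK'c.measurableSet, probReal_univ]
  have hsub : K' ⊆ K := fun x hx => by simpa using hw x hx 0 (by simpa using hs.le)
  have e : (uniformProbOn K).real K' = (1 - l) ^ d := by
    rw [Measure.real, uniformProbOn, Measure.smul_apply,
      Measure.restrict_apply hK'c.measurableSet, inter_eq_left.2 hsub, hK',
      Measure.addHaar_image_homothety, smul_eq_mul, mul_left_comm,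
      ENNReal.inv_mul_cancel h0 h1, mul_one, ENNReal.toReal_ofReal (abs_nonneg _),
      abs_of_nonneg (pow_nonneg (by linarith) _)]
    simp
  rw [e]
  have h4 := one_add_mul_le_pow (a := -l) (by linarith) d
  have e2 : (d + 1) / r * s = (d + 1) * l := by rw [hl]; ring
  rw [e2, ← sub_eq_add_neg] at *
  nlinarith

lemma interp_dir {ρ : Measure (E d)} {R : ℝ} (h : Src ρ R) {K : Set (E d)} {c : ℝ}
    (hK : Shrink ρ K c) {T S : E d → E d} (hT : Measurable T) (hS : Measurable S)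
    (hTR : ∀ᵐ x ∂ρ, ‖T x‖ ≤ R) (hSR : ∀ᵐ x ∂ρ, ‖S x‖ ≤ R) {φ χ η₁ η₂ : E d → ℝ}
    (hφ : Continuous φ) (hχ : Continuous χ)
    (hχc : ∀ x w, 0 ≤ χ (x + w) + χ (x - w) - 2 * χ x)
    (hχl : ∀ x w, |χ (x + w) - χ x| ≤ R * ‖w‖) (i1 : Integrable η₁ ρ) (i2 : Integrable η₂ ρ)
    (n1 : ∀ᵐ x ∂ρ, 0 ≤ η₁ x) (n2 : ∀ᵐ x ∂ρ, 0 ≤ η₂ x)
    (g1 : ∀ᵐ x ∂ρ, ∀ x' ∈ K, φ x + ⟪x' - x, T x⟫ - η₁ x ≤ φ x')
    (g2 : ∀ᵐ x ∂ρ, ∀ x' ∈ K, χ x + ⟪x' - x, S x⟫ - η₂ x ≤ χ x') {s : ℝ} (hs : 0 < s)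
    {v : E d} (hv : ‖v‖ ≤ 1) :
    ∫ x, (max ⟪v, T x - S x⟫ 0) ^ 2 ∂ρ ≤
      4 * (∫ x, (φ x - χ x) ^ 2 ∂ρ) / s ^ 2 + 12 * R ^ 2 * c * s +
        4 * R * (∫ x, η₁ x ∂ρ + ∫ x, η₂ x ∂ρ) / s := by
  have := h.prob
  have hR := h.pos
  obtain ⟨K', hK', hc, hw, htr⟩ := hK s hs
  set u : E d → ℝ := fun x => max ⟪v, T x - S x⟫ 0 with hu
  have hu0 : ∀ x, 0 ≤ u x := fun x => le_max_right _ _
  have hum : Measurable u := by fun_prop
  have huR : ∀ᵐ x ∂ρ, u x ≤ 2 * R := by
    filter_upwards [hTR, hSR] with x h1 h2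
    refine max_le ((real_inner_le_norm _ _).trans ?_) (by positivity)
    have := norm_sub_le (T x) (S x)
    nlinarith [norm_nonneg v, norm_nonneg (T x - S x)]
  have iu : Integrable (fun x => u x ^ 2) ρ := by
    refine Integrable.of_bound (by fun_prop) ((2 * R) ^ 2) ?_
    filter_upwards [huR] with x hx
    rw [Real.norm_of_nonneg (sq_nonneg _)]
    exact pow_le_pow_left₀ (hu0 x) hx 2
  have hsv : ‖s • v‖ ≤ s := by
    rw [norm_smul, Real.norm_of_nonneg hs.le]; nlinarith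
  have hsv' : ‖-(s • v)‖ ≤ s := by rwa [norm_neg]
  set g : E d → ℝ := fun x => φ x - χ x with hg
  have hgc : Continuous g := hφ.sub hχ
  set D : E d → ℝ := fun x => χ (x + s • v) - χ x with hD
  have hDc : Continuous D := by fun_prop
  have hDb : ∀ x, |D x| ≤ R * s := fun x => (hχl x _).trans (by gcongr)
  -- complement
  have c1 : ∫ x in K'ᶜ, u x ^ 2 ∂ρ ≤ 4 * R ^ 2 * (c * s) := by
    have h1 : ∫ x in K'ᶜ, u x ^ 2 ∂ρ ≤ ∫ _ in K'ᶜ, (2 * R) ^ 2 ∂ρ := by
      refine integral_mono_ae iu.integrableOn (integrable_const _) ?_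
      filter_upwards [ae_restrict_of_ae huR] with x hx
      exact pow_le_pow_left₀ (hu0 x) hx 2
    simp only [integral_const, measureReal_restrict_apply_univ, smul_eq_mul] at h1
    nlinarith [mul_le_mul_of_nonneg_left hc (show 0 ≤ 4 * R ^ 2 by positivity)]
  -- main part
  have c2 : ∫ x in K', s / 2 * u x ^ 2 ∂ρ ≤ ∫ x in K', ((g (x + s • v) ^ 2 + g x ^ 2) / s +
      2 * R * (D x - D (x + -(s • v)) + η₁ x + η₂ x)) ∂ρ := by
    refine integral_mono_ae (iu.integrableOn.const_mul _) ?_ ?_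
    · refine Integrable.add (h.integrable (by fun_prop)).integrableOn (Integrable.const_mul ?_ _)
      exact ((h.integrable (by fun_prop)).integrableOn.add i1.integrableOn).add i2.integrableOn
    filter_upwards [ae_restrict_mem hK', ae_restrict_of_ae huR, ae_restrict_of_ae n1,
      ae_restrict_of_ae n2, ae_restrict_of_ae g1, ae_restrict_of_ae g2] with x hx a1 a2 a3 a4 a5
    have b1 := a4 _ (hw x hx _ hsv)
    have b2 := a5 _ (hw x hx _ hsv')
    rw [add_sub_cancel_left] at b1 b2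
    rw [inner_neg_left, inner_smul_left] at b2
    rw [inner_smul_left] at b1
    simp only [conj_trivial] at b1 b2
    have e1 : D x - D (x + -(s • v)) = χ (x + s • v) + χ (x - s • v) - 2 * χ x := by
      simp only [hD, neg_add_cancel_right, sub_eq_add_neg]; ring
    have b3 := hχc x (s • v)
    set Q := D x - D (x + -(s • v)) + η₁ x + η₂ x with hQ
    have hQ0 : 0 ≤ Q := by rw [hQ, e1]; positivity
    have b4 : s * ⟪v, T x - S x⟫ ≤ g (x + s • v) - g x + Q := by
      rw [hQ, e1, inner_sub_right]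
      simp only [hg, sub_eq_add_neg] at *
      linarith
    have b5 : s * u x ^ 2 ≤ u x * (g (x + s • v) - g x + Q) := by
      rcases le_total ⟪v, T x - S x⟫ 0 with hh | hh
      · have : u x = 0 := max_eq_right hh
        rw [this]; simp
      · have e : u x = ⟪v, T x - S x⟫ := max_eq_left hh
        have := mul_le_mul_of_nonneg_left b4 (hu0 x)
        rw [← e] at this; linarith
    have b6 : u x * Q ≤ 2 * R * Q := mul_le_mul_of_nonneg_right a1 hQ0
    have b7 : u x * (g (x + s • v) - g x) ≤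
        s / 2 * u x ^ 2 + (g (x + s • v) ^ 2 + g x ^ 2) / s := by
      have e : s / 2 * u x ^ 2 + (g (x + s • v) ^ 2 + g x ^ 2) / s -
          u x * (g (x + s • v) - g x) = ((s * u x - (g (x + s • v) - g x)) ^ 2 +
            (g (x + s • v) + g x) ^ 2) / (2 * s) := by field_simp; ring
      have : 0 ≤ ((s * u x - (g (x + s • v) - g x)) ^ 2 +
            (g (x + s • v) + g x) ^ 2) / (2 * s) := by positivity
      linarith
    linarith
  have I : ∀ {f : E d → ℝ}, Continuous f → IntegrableOn f K' ρ := fun hf =>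
    (h.integrable hf).integrableOn
  have I1 : IntegrableOn (fun x => D x - D (x + -(s • v)) + η₁ x) K' ρ :=
    (I (by fun_prop)).add i1.integrableOn
  have I2 : IntegrableOn (fun x => D x - D (x + -(s • v)) + η₁ x + η₂ x) K' ρ :=
    I1.add i2.integrableOn
  rw [integral_const_mul, integral_add (I (by fun_prop)) (I2.const_mul _), integral_div,
    integral_add (I (by fun_prop)) (I (by fun_prop)), integral_const_mul,
    integral_add I1 i2.integrableOn,
    integral_add (I (by fun_prop)) i1.integrableOn,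
    integral_sub (I (by fun_prop)) (I (by fun_prop))] at c2
  have d1 := htr (fun x => g x ^ 2) (by fun_prop) (fun x => sq_nonneg _) _ hsv
  have d2 : ∫ x in K', g x ^ 2 ∂ρ ≤ ∫ x, g x ^ 2 ∂ρ :=
    setIntegral_le_integral (h.integrable (by fun_prop)) (Eventually.of_forall fun x => sq_nonneg _)
  have d3 : ∫ x in K', η₁ x ∂ρ ≤ ∫ x, η₁ x ∂ρ := setIntegral_le_integral i1 n1
  have d4 : ∫ x in K', η₂ x ∂ρ ≤ ∫ x, η₂ x ∂ρ := setIntegral_le_integral i2 n2
  have d5 := htr (fun x => R * s - D x) (by fun_prop)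
    (fun x => by linarith [le_abs_self (D x), hDb x]) _ hsv'
  have d6 : ∫ x in K', (R * s + D x) ∂ρ ≤ ∫ x, (R * s + D x) ∂ρ :=
    setIntegral_le_integral (h.integrable (by fun_prop))
      (Eventually.of_forall fun x => by
        simp only [Pi.zero_apply]; linarith [neg_abs_le (D x), hDb x])
  rw [integral_sub (integrable_const _) (I (by fun_prop)),
    integral_sub (integrable_const _) (h.integrable hDc)] at d5
  rw [integral_add (integrable_const _) (I (by fun_prop)),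
    integral_add (integrable_const _) (h.integrable hDc)] at d6
  simp only [integral_const, measureReal_restrict_apply_univ, smul_eq_mul, probReal_univ,
    one_mul] at d5 d6
  rw [measureReal_compl hK', probReal_univ] at hc
  have d7 : ∫ x in K', D x ∂ρ - ∫ x in K', D (x + -(s • v)) ∂ρ ≤ 2 * (R * s) * (c * s) := by
    nlinarith [mul_le_mul_of_nonneg_left hc (show 0 ≤ R * s by positivity)]
  rw [← integral_add_compl hK' iu]
  set δ := ∫ x, g x ^ 2 ∂ρ
  set U := ∫ x in K', u x ^ 2 ∂ρ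
  set H := ∫ x, η₁ x ∂ρ + ∫ x, η₂ x ∂ρ with hH
  have d8 : s / 2 * U ≤ 2 * δ / s + 2 * R * (2 * (R * s) * (c * s) + H) := by
    refine c2.trans (add_le_add ?_ ?_)
    · gcongr; linarith
    · exact mul_le_mul_of_nonneg_left (by linarith) (by positivity)
  have d9 : U ≤ 4 * δ / s ^ 2 + 8 * R ^ 2 * c * s + 4 * R * H / s := by
    have e : 4 * δ / s ^ 2 + 8 * R ^ 2 * c * s + 4 * R * H / s =
        (2 * δ / s + 2 * R * (2 * (R * s) * (c * s) + H)) / (s / 2) := by field_simp; ring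
    rw [e, le_div_iff₀ (by positivity)]; linarith
  linarith

theorem interp {ρ : Measure (E d)} {R : ℝ} (h : Src ρ R) {K : Set (E d)} {c : ℝ}
    (hK : Shrink ρ K c) {T S : E d → E d} (hT : Measurable T) (hS : Measurable S)
    (hTR : ∀ᵐ x ∂ρ, ‖T x‖ ≤ R) (hSR : ∀ᵐ x ∂ρ, ‖S x‖ ≤ R) {φ χ η₁ η₂ : E d → ℝ}
    (hφ : Continuous φ) (hχ : Continuous χ)
    (hχc : ∀ x w, 0 ≤ χ (x + w) + χ (x - w) - 2 * χ x)
    (hχl : ∀ x w, |χ (x + w) - χ x| ≤ R * ‖w‖) (i1 : Integrable η₁ ρ) (i2 : Integrable η₂ ρ)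
    (n1 : ∀ᵐ x ∂ρ, 0 ≤ η₁ x) (n2 : ∀ᵐ x ∂ρ, 0 ≤ η₂ x)
    (g1 : ∀ᵐ x ∂ρ, ∀ x' ∈ K, φ x + ⟪x' - x, T x⟫ - η₁ x ≤ φ x')
    (g2 : ∀ᵐ x ∂ρ, ∀ x' ∈ K, χ x + ⟪x' - x, S x⟫ - η₂ x ≤ χ x') {s : ℝ} (hs : 0 < s) :
    ∫ x, ‖T x - S x‖ ^ 2 ∂ρ ≤ 2 * d *
      (4 * (∫ x, (φ x - χ x) ^ 2 ∂ρ) / s ^ 2 + 12 * R ^ 2 * c * s +
        4 * R * (∫ x, η₁ x ∂ρ + ∫ x, η₂ x ∂ρ) / s) := by
  have := h.prob
  have hR := h.pos
  have iu : ∀ v : E d, Integrable (fun x => (max ⟪v, T x - S x⟫ 0) ^ 2) ρ := by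
    intro v
    refine Integrable.of_bound (by fun_prop) ((‖v‖ * (2 * R)) ^ 2) ?_
    filter_upwards [hTR, hSR] with x h1 h2
    rw [Real.norm_of_nonneg (sq_nonneg _)]
    refine pow_le_pow_left₀ (le_max_right _ _) ?_ 2
    refine max_le ((real_inner_le_norm _ _).trans ?_) (by positivity)
    have := norm_sub_le (T x) (S x)
    gcongr; linarith
  have e : ∀ x, ‖T x - S x‖ ^ 2 = ∑ k : Fin d,
      ((max ⟪EuclideanSpace.single k (1 : ℝ), T x - S x⟫ 0) ^ 2 +
        (max ⟪-EuclideanSpace.single k (1 : ℝ), T x - S x⟫ 0) ^ 2) := by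
    intro x
    rw [EuclideanSpace.real_norm_sq_eq]
    refine Finset.sum_congr rfl fun k _ => ?_
    rw [inner_neg_left, EuclideanSpace.inner_single_left]
    simp only [conj_trivial, one_mul]
    rcases le_total ((T x - S x) k) 0 with hh | hh
    · rw [max_eq_right hh, max_eq_left (by linarith)]; ring
    · rw [max_eq_left hh, max_eq_right (by linarith)]; ring
  simp_rw [e]
  have iu2 : ∀ k : Fin d, Integrable (fun x =>
      (max ⟪EuclideanSpace.single k (1 : ℝ), T x - S x⟫ 0) ^ 2 +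
        (max ⟪-EuclideanSpace.single k (1 : ℝ), T x - S x⟫ 0) ^ 2) ρ := fun k => (iu _).add (iu _)
  rw [integral_finsetSum _ fun k _ => iu2 k]
  refine (Finset.sum_le_card_nsmul _ _ (2 * (4 * (∫ x, (φ x - χ x) ^ 2 ∂ρ) / s ^ 2 +
    12 * R ^ 2 * c * s + 4 * R * (∫ x, η₁ x ∂ρ + ∫ x, η₂ x ∂ρ) / s)) fun k _ => ?_).trans
      (le_of_eq ?_)
  · rw [integral_add (iu _) (iu _), two_mul]
    refine add_le_add ?_ ?_ <;>
    exact interp_dir h hK hT hS hTR hSR hφ hχ hχc hχl i1 i2 n1 n2 g1 g2 hs (by simp)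
  · simp; ring

end Crest.Agent.H0082
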