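import Crest.Agent.H0082.Src

/-! The key estimate: first moments of cells are Lipschitz in the masses. -/

set_option autoImplicit false

namespace Crest.Agent.H0082

open MeasureTheory Set
open scoped ENNReal NNReal RealInnerProductSpace

variable {d : ℕ}

/-- Gaussian weight. -/
noncomputable def gam (κ : ℝ) (x : E d) : ℝ := Real.exp (-(κ * ‖x‖ ^ 2 / 2))

lemma gam_cont (κ : ℝ) : Continuous (gam κ : E d → ℝ) := by unfold gam; fun_prop

lemma gam_pos (κ : ℝ) (x : E d) : 0 < gam κ x := Real.exp_pos _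

lemma jensen_exp {ρ : Measure (E d)} {R : ℝ} (h : Src ρ R) (A : Set (E d)) {γ u : E d → ℝ}
    (hγ : Continuous γ) (hγ0 : ∀ x, 0 ≤ γ x) (hu : Continuous u) (hα : 0 < ∫ x in A, γ x ∂ρ) :
    (∫ x in A, γ x ∂ρ) * Real.exp ((∫ x in A, u x * γ x ∂ρ) / ∫ x in A, γ x ∂ρ) ≤
      ∫ x in A, γ x * Real.exp (u x) ∂ρ := by
  set α := ∫ x in A, γ x ∂ρ with hαd
  set c := (∫ x in A, u x * γ x ∂ρ) / α with hc
  have i1 : IntegrableOn γ A ρ := (h.integrable hγ).integrableOn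
  have i2 : IntegrableOn (fun x => u x * γ x) A ρ := (h.integrable (hu.mul hγ)).integrableOn
  have e : ∫ x in A, Real.exp c * ((1 - c) * γ x + u x * γ x) ∂ρ = α * Real.exp c := by
    rw [integral_const_mul, integral_add (i1.const_mul _) i2, integral_const_mul, ← hαd]
    have : ∫ x in A, u x * γ x ∂ρ = c * α := by rw [hc]; field_simp
    rw [this]; ring
  rw [← e]
  refine integral_mono (((i1.const_mul _).add i2).const_mul _)
    (h.integrable (by fun_prop)).integrableOn fun x => ?_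
  have h1 : u x - c + 1 ≤ Real.exp (u x - c) := Real.add_one_le_exp _
  have h2 : Real.exp (u x) = Real.exp c * Real.exp (u x - c) := by rw [← Real.exp_add]; ring_nf
  have h3 := hγ0 x
  have h4 := Real.exp_pos c
  simp only
  rw [h2]
  have : Real.exp c * γ x * (u x - c + 1) ≤ Real.exp c * γ x * Real.exp (u x - c) :=
    mul_le_mul_of_nonneg_left h1 (by positivity)
  linarith

lemma norm_mid (x y : E d) :
    ‖(1 / 2 : ℝ) • (x + y)‖ ^ 2 = (‖x‖ ^ 2 + ‖y‖ ^ 2) / 2 - ‖x - y‖ ^ 2 / 4 := by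
  rw [norm_smul, mul_pow]
  have := parallelogram_law_with_norm ℝ x y
  simp only [one_div, norm_inv, Real.norm_ofNat]
  nlinarith

lemma cell_bound {ρ : Measure (E d)} {R : ℝ} (h : Src ρ R) {A B C : Set (E d)}
    (hA : MeasurableSet A) (hB : MeasurableSet B) (hC : MeasurableSet C)
    (hm : ∀ x ∈ A, ∀ y ∈ B, (1 / 2 : ℝ) • (x + y) ∈ C) {κ : ℝ} (hκ : 0 < κ) {u : E d → ℝ}
    (hu : Continuous u) {L : ℝ} (hL : ∀ x y, ‖x‖ ≤ R → ‖y‖ ≤ R → u x - u y ≤ L * ‖x - y‖)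
    (hα : 0 < ∫ x in A, gam κ x ∂ρ) (hβ : 0 < ∫ x in B, gam κ x ∂ρ) :
    √(∫ x in A, gam κ x ∂ρ) * √(∫ x in B, gam κ x ∂ρ) *
      (1 + ((∫ x in A, u x * gam κ x ∂ρ) / (∫ x in A, gam κ x ∂ρ) -
        (∫ x in B, u x * gam κ x ∂ρ) / (∫ x in B, gam κ x ∂ρ)) / 2 - L ^ 2 / (2 * κ)) ≤
      ∫ x in C, gam κ x ∂ρ := by
  have hg := gam_cont (d := d) κ
  have hg0 : ∀ x : E d, 0 ≤ gam κ x := fun x => (gam_pos κ x).le
  have j1 := jensen_exp h A hg hg0 hu hα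
  have j2 := jensen_exp h B hg hg0 hu.neg hβ
  have pl := h.pl_real hA hB hC hm (f := fun x => gam κ x * Real.exp (u x))
    (g := fun x => gam κ x * Real.exp (-u x)) (k := fun x => Real.exp (L ^ 2 / (2 * κ)) * gam κ x)
    (by fun_prop) (by fun_prop) (by fun_prop) (fun x => by have := hg0 x; positivity)
    (fun x => by have := hg0 x; positivity) (fun x => by have := hg0 x; positivity) (by
      intro x y hx hy
      simp only [gam]
      rw [← Real.exp_add, ← Real.exp_add, ← Real.exp_add, ← Real.exp_add, ← Real.exp_nat_mul,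
        Real.exp_le_exp, norm_mid]
      have h1 := hL x y hx hy
      have h2 : L * ‖x - y‖ ≤ L ^ 2 / κ + κ * ‖x - y‖ ^ 2 / 4 := by
        have : 0 ≤ (L - κ * ‖x - y‖ / 2) ^ 2 / κ := by positivity
        have e : (L - κ * ‖x - y‖ / 2) ^ 2 / κ =
            L ^ 2 / κ + κ * ‖x - y‖ ^ 2 / 4 - L * ‖x - y‖ := by field_simp; ring
        linarith
      have e : ((2 : ℕ) : ℝ) * (L ^ 2 / (2 * κ) +
          -(κ * ((‖x‖ ^ 2 + ‖y‖ ^ 2) / 2 - ‖x - y‖ ^ 2 / 4) / 2)) =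
          L ^ 2 / κ - κ * ‖x‖ ^ 2 / 2 - κ * ‖y‖ ^ 2 / 2 + κ * ‖x - y‖ ^ 2 / 4 := by
        push_cast; field_simp; ring
      rw [e]; linarith)
  rw [integral_const_mul] at pl
  set α := ∫ x in A, gam κ x ∂ρ
  set β := ∫ x in B, gam κ x ∂ρ
  set c := ∫ x in C, gam κ x ∂ρ
  have hc : 0 ≤ c := integral_nonneg hg0
  set p := (∫ x in A, u x * gam κ x ∂ρ) / α
  have e2 : (∫ x in B, (-u) x * gam κ x ∂ρ) / β = -((∫ x in B, u x * gam κ x ∂ρ) / β) := by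
    simp only [Pi.neg_apply, neg_mul, integral_neg, neg_div]
  rw [e2] at j2
  set q := (∫ x in B, u x * gam κ x ∂ρ) / β
  simp only [Pi.neg_apply] at j2
  have h3 : (α * Real.exp p) * (β * Real.exp (-q)) ≤ (Real.exp (L ^ 2 / (2 * κ)) * c) ^ 2 :=
    le_trans (mul_le_mul j1 j2 (by positivity) (le_trans (by positivity) j1)) pl
  have h4 : (α * Real.exp p) * (β * Real.exp (-q)) = (√α * √β * Real.exp ((p - q) / 2)) ^ 2 := by
    rw [mul_pow, mul_pow, Real.sq_sqrt hα.le, Real.sq_sqrt hβ.le, ← Real.exp_nat_mul]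
    have : ((2 : ℕ) : ℝ) * ((p - q) / 2) = p + -q := by push_cast; ring
    rw [this, Real.exp_add]; ring
  rw [h4] at h3
  have h5 := (pow_le_pow_iff_left₀ (by positivity) (by positivity) two_ne_zero).1 h3
  have h6 : √α * √β * Real.exp ((p - q) / 2 - L ^ 2 / (2 * κ)) ≤ c := by
    rw [Real.exp_sub, ← mul_div_assoc, div_le_iff₀ (Real.exp_pos _)]
    linarith
  refine le_trans ?_ h6
  have := Real.add_one_le_exp ((p - q) / 2 - L ^ 2 / (2 * κ))
  exact mul_le_mul_of_nonneg_left (by linarith) (by positivity)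

/-- inverse of the Gaussian weight -/
noncomputable def igam (κ : ℝ) (x : E d) : ℝ := Real.exp (κ * ‖x‖ ^ 2 / 2)

lemma igam_cont (κ : ℝ) : Continuous (igam κ : E d → ℝ) := by unfold igam; fun_prop

lemma igam_mul (κ : ℝ) (x : E d) : igam κ x * gam κ x = 1 := by
  simp [igam, gam, ← Real.exp_add]

lemma igam_le {κ R : ℝ} (hκ : 0 < κ) (hκR : κ * R ^ 2 = 1 / 16) {x : E d} (hx : ‖x‖ ≤ R) :
    igam κ x ≤ 2 := by
  have h1 : ‖x‖ ^ 2 ≤ R ^ 2 := pow_le_pow_left₀ (norm_nonneg _) hx 2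
  have h2 : κ * ‖x‖ ^ 2 / 2 ≤ 1 / 2 := by nlinarith
  have h3 : Real.exp (1 / 2) ≤ 2 := by
    have := Real.exp_one_lt_d9
    have e : Real.exp (1 / 2) ^ 2 = Real.exp 1 := by rw [← Real.exp_nat_mul]; norm_num
    nlinarith [Real.exp_pos (1 / 2)]
  exact (Real.exp_le_exp.2 h2).trans h3

lemma igam_lip {κ R : ℝ} (hκ : 0 < κ) (hκR : κ * R ^ 2 = 1 / 16) {x y : E d} (hx : ‖x‖ ≤ R)
    (hy : ‖y‖ ≤ R) : |igam κ x - igam κ y| ≤ 2 * κ * R * ‖x - y‖ := by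
  have aux : ∀ {x y : E d}, ‖x‖ ≤ R → ‖y‖ ≤ R → igam κ x - igam κ y ≤ 2 * κ * R * ‖x - y‖ := by
    intro x y hx hy
    have h1 := igam_le hκ hκR hx
    have h0 : 0 < igam κ x := Real.exp_pos _
    have h2 : igam κ y = igam κ x * Real.exp (κ * ‖y‖ ^ 2 / 2 - κ * ‖x‖ ^ 2 / 2) := by
      simp only [igam]; rw [← Real.exp_add]; ring_nf
    have h3 := Real.add_one_le_exp (κ * ‖y‖ ^ 2 / 2 - κ * ‖x‖ ^ 2 / 2)
    have h4 : ‖x‖ - ‖y‖ ≤ ‖x - y‖ := norm_sub_norm_le x y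
    have h5 : ‖x‖ ^ 2 - ‖y‖ ^ 2 ≤ 2 * R * ‖x - y‖ := by
      have := norm_nonneg x; have := norm_nonneg y; have := norm_nonneg (x - y)
      by_cases hh : ‖x‖ ≤ ‖y‖
      · nlinarith
      · nlinarith
    have h6 : igam κ x - igam κ y ≤ igam κ x * (κ * (‖x‖ ^ 2 - ‖y‖ ^ 2) / 2) := by
      rw [h2]; nlinarith
    have h7 : κ * (‖x‖ ^ 2 - ‖y‖ ^ 2) / 2 ≤ κ * R * ‖x - y‖ := by nlinarith
    have h8 : 0 ≤ κ * R * ‖x - y‖ := by
      have : 0 ≤ R := (norm_nonneg _).trans hx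
      positivity
    nlinarith
  rw [abs_le]
  have h1 := aux hx hy
  have h2 := aux hy hx
  rw [norm_sub_rev] at h2
  constructor <;> linarith

lemma alg1 {p q a b : ℝ} (hp : 0 < p) (hq : 0 < q) (ha : p ^ 2 ≤ a) (hb : q ^ 2 ≤ b) :
    (p - q) ^ 2 / 2 ≤ (a - b) ^ 2 / p ^ 2 + p * q * (a / p ^ 2 - b / q ^ 2) ^ 2 / 4 := by
  set D := a / p ^ 2 - b / q ^ 2 with hD
  have hp2 : 0 < p ^ 2 := by positivity
  have hq2 : 0 < q ^ 2 := by positivity
  have key : |p ^ 2 - q ^ 2| ≤ |a - b| + p * q * |D| := by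
    rcases le_total p q with hpq | hpq
    · have e : (p ^ 2 - q ^ 2) * (b / q ^ 2) = (a - b) - p ^ 2 * D := by
        rw [hD]; field_simp; ring
      have h1 : 1 ≤ b / q ^ 2 := by rw [le_div_iff₀ hq2]; linarith
      have h2 : |p ^ 2 - q ^ 2| ≤ |(p ^ 2 - q ^ 2) * (b / q ^ 2)| := by
        rw [abs_mul, abs_of_pos (by linarith : 0 < b / q ^ 2)]
        nlinarith [abs_nonneg (p ^ 2 - q ^ 2)]
      rw [e] at h2
      have h3 := abs_sub (a - b) (p ^ 2 * D)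
      rw [abs_mul, abs_of_pos hp2] at h3
      have h4 : p ^ 2 * |D| ≤ p * q * |D| := by
        apply mul_le_mul_of_nonneg_right _ (abs_nonneg _); nlinarith
      linarith
    · have e : (p ^ 2 - q ^ 2) * (a / p ^ 2) = (a - b) - q ^ 2 * D := by
        rw [hD]; field_simp; ring
      have h1 : 1 ≤ a / p ^ 2 := by rw [le_div_iff₀ hp2]; linarith
      have h2 : |p ^ 2 - q ^ 2| ≤ |(p ^ 2 - q ^ 2) * (a / p ^ 2)| := by
        rw [abs_mul, abs_of_pos (by linarith : 0 < a / p ^ 2)]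
        nlinarith [abs_nonneg (p ^ 2 - q ^ 2)]
      rw [e] at h2
      have h3 := abs_sub (a - b) (q ^ 2 * D)
      rw [abs_mul, abs_of_pos hq2] at h3
      have h4 : q ^ 2 * |D| ≤ p * q * |D| := by
        apply mul_le_mul_of_nonneg_right _ (abs_nonneg _); nlinarith
      linarith
  have h2 : (p ^ 2 - q ^ 2) ^ 2 ≤ 2 * (a - b) ^ 2 + 2 * (p * q) ^ 2 * D ^ 2 := by
    have h3 := pow_le_pow_left₀ (abs_nonneg _) key 2
    rw [sq_abs] at h3
    have h4 : (|a - b| + p * q * |D|) ^ 2 ≤ 2 * |a - b| ^ 2 + 2 * (p * q * |D|) ^ 2 := by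
      nlinarith [sq_nonneg (|a - b| - p * q * |D|)]
    rw [mul_pow, sq_abs, sq_abs] at h4
    linarith
  have hs : 0 < (p + q) ^ 2 := by positivity
  have h5 : (p - q) ^ 2 / 2 = (p ^ 2 - q ^ 2) ^ 2 / (2 * (p + q) ^ 2) := by field_simp; ring
  have h6 : (a - b) ^ 2 / (p + q) ^ 2 ≤ (a - b) ^ 2 / p ^ 2 := by
    apply div_le_div_of_nonneg_left (sq_nonneg _) hp2; nlinarith
  have h7 : (p * q) ^ 2 * D ^ 2 / (p + q) ^ 2 ≤ p * q * D ^ 2 / 4 := by
    rw [div_le_div_iff₀ hs (by norm_num)]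
    have : 0 ≤ p * q * D ^ 2 := by positivity
    nlinarith [mul_nonneg this (sq_nonneg (p - q))]
  calc (p - q) ^ 2 / 2 = (p ^ 2 - q ^ 2) ^ 2 / (2 * (p + q) ^ 2) := h5
    _ ≤ (2 * (a - b) ^ 2 + 2 * (p * q) ^ 2 * D ^ 2) / (2 * (p + q) ^ 2) := by gcongr
    _ = (a - b) ^ 2 / (p + q) ^ 2 + (p * q) ^ 2 * D ^ 2 / (p + q) ^ 2 := by field_simp
    _ ≤ _ := add_le_add h6 h7

end Crest.Agent.H0082
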