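import Crest.Agent.H0082.Key

/-! The key estimate, summed over the cells. -/

set_option autoImplicit false

namespace Crest.Agent.H0082

open MeasureTheory Set
open scoped ENNReal NNReal RealInnerProductSpace

variable {d : ℕ}

lemma gam_le_one {κ : ℝ} (hκ : 0 < κ) (x : E d) : gam κ x ≤ 1 := by
  unfold gam
  rw [Real.exp_le_one_iff]
  have : 0 ≤ κ * ‖x‖ ^ 2 / 2 := by positivity
  linarith

lemma int_gam_le {ρ : Measure (E d)} {R : ℝ} (h : Src ρ R) {κ : ℝ} (hκ : 0 < κ) (A : Set (E d)) :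
    ∫ x in A, gam κ x ∂ρ ≤ ρ.real A := by
  have := h.prob
  have : ∫ x in A, gam κ x ∂ρ ≤ ∫ _ in A, (1 : ℝ) ∂ρ :=
    integral_mono (h.integrable (gam_cont κ)).integrableOn (integrable_const _)
      fun x => gam_le_one hκ x
  simpa using this

lemma le_int_gam {ρ : Measure (E d)} {R : ℝ} (h : Src ρ R) {κ : ℝ} (hκ : 0 < κ)
    (hκR : κ * R ^ 2 = 1 / 16) (A : Set (E d)) : ρ.real A ≤ 2 * ∫ x in A, gam κ x ∂ρ := by
  have := h.prob
  have : ∫ _ in A, (1 : ℝ) ∂ρ ≤ ∫ x in A, 2 * gam κ x ∂ρ := by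
    refine integral_mono_ae (integrable_const _)
      ((h.integrable (gam_cont κ)).integrableOn.const_mul _) ?_
    filter_upwards [ae_restrict_of_ae h.ball] with x hx
    rw [← igam_mul κ x]
    exact mul_le_mul_of_nonneg_right (igam_le hκ hκR hx) (gam_pos κ x).le
  rw [integral_const_mul] at this
  simpa using this

lemma norm_moment_le {ρ : Measure (E d)} {R : ℝ} (h : Src ρ R) (A : Set (E d)) :
    ‖∫ x in A, x ∂ρ‖ ≤ R * ρ.real A := by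
  have := h.prob
  have := norm_integral_le_of_norm_le_const (μ := ρ.restrict A) (f := fun x : E d => x) (C := R)
    (ae_restrict_of_ae h.ball)
  simpa using this

lemma cell0 {ρ : Measure (E d)} {R : ℝ} (h : Src ρ R) {A B C : Set (E d)}
    (hA : MeasurableSet A) (hB : MeasurableSet B) (hC : MeasurableSet C)
    (hm : ∀ x ∈ A, ∀ y ∈ B, (1 / 2 : ℝ) • (x + y) ∈ C) {κ : ℝ} (hκ : 0 < κ)
    (hκR : κ * R ^ 2 = 1 / 16)
    (hα : 0 < ∫ x in A, gam κ x ∂ρ) (hβ : 0 < ∫ x in B, gam κ x ∂ρ) :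
    √(∫ x in A, gam κ x ∂ρ) * √(∫ x in B, gam κ x ∂ρ) *
      (1 + (ρ.real A / (∫ x in A, gam κ x ∂ρ) - ρ.real B / (∫ x in B, gam κ x ∂ρ)) ^ 2 / 2) ≤
      ∫ x in C, gam κ x ∂ρ := by
  have := h.prob
  set D := ρ.real A / (∫ x in A, gam κ x ∂ρ) - ρ.real B / (∫ x in B, gam κ x ∂ρ) with hD
  have hR := h.pos
  have key := cell_bound h hA hB hC hm hκ (u := fun x => 2 * D * igam κ x)
    (continuous_const.mul (igam_cont κ)) (L := 2 * |D| * (2 * κ * R)) (by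
      intro x y hx hy
      have h1 := igam_lip hκ hκR hx hy
      calc 2 * D * igam κ x - 2 * D * igam κ y = 2 * (D * (igam κ x - igam κ y)) := by ring
        _ ≤ 2 * (|D| * |igam κ x - igam κ y|) := by rw [← abs_mul]; gcongr; exact le_abs_self _
        _ ≤ 2 * (|D| * (2 * κ * R * ‖x - y‖)) := by gcongr
        _ = _ := by ring) hα hβ
  have e : ∀ S : Set (E d), ∫ x in S, 2 * D * igam κ x * gam κ x ∂ρ = 2 * D * ρ.real S := by
    intro S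
    simp only [mul_assoc (2 * D), igam_mul]
    simp [mul_comm]
  rw [e, e] at key
  refine le_trans (le_of_eq ?_) key
  congr 1
  have e2 : (2 * |D| * (2 * κ * R)) ^ 2 / (2 * κ) = D ^ 2 / 2 := by
    rw [mul_pow, mul_pow, sq_abs]
    have : (2 * κ * R) ^ 2 = 4 * κ * (κ * R ^ 2) := by ring
    rw [this, hκR]; field_simp; ring
  rw [e2, mul_div_assoc, mul_div_assoc, ← mul_sub, ← hD]; ring

lemma cell1 {ρ : Measure (E d)} {R : ℝ} (h : Src ρ R) {A B C : Set (E d)}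
    (hA : MeasurableSet A) (hB : MeasurableSet B) (hC : MeasurableSet C)
    (hm : ∀ x ∈ A, ∀ y ∈ B, (1 / 2 : ℝ) • (x + y) ∈ C) {κ : ℝ} (hκ : 0 < κ)
    (hκR : κ * R ^ 2 = 1 / 16)
    (hα : 0 < ∫ x in A, gam κ x ∂ρ) (hβ : 0 < ∫ x in B, gam κ x ∂ρ) :
    √(∫ x in A, gam κ x ∂ρ) * √(∫ x in B, gam κ x ∂ρ) *
      (1 + κ / 72 * ‖(∫ x in A, gam κ x ∂ρ)⁻¹ • (∫ x in A, x ∂ρ) -
        (∫ x in B, gam κ x ∂ρ)⁻¹ • (∫ x in B, x ∂ρ)‖ ^ 2) ≤
      ∫ x in C, gam κ x ∂ρ := by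
  have := h.prob
  set b := (∫ x in A, gam κ x ∂ρ)⁻¹ • (∫ x in A, x ∂ρ) -
        (∫ x in B, gam κ x ∂ρ)⁻¹ • (∫ x in B, x ∂ρ) with hb
  have hR := h.pos
  have key := cell_bound h hA hB hC hm hκ (u := fun x => κ / 18 * ⟪b, x⟫ * igam κ x)
    (by have := igam_cont (d := d) κ; fun_prop) (L := κ / 18 * (3 * ‖b‖)) (by
      intro x y hx hy
      have h1 := igam_lip hκ hκR hx hy
      have h2 := igam_le hκ hκR hx
      have h0 : 0 < igam κ x := Real.exp_pos _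
      have h3 : ⟪b, x - y⟫ ≤ ‖b‖ * ‖x - y‖ := real_inner_le_norm _ _
      have h4 : |⟪b, y⟫| ≤ ‖b‖ * R :=
        (abs_real_inner_le_norm _ _).trans (by gcongr)
      have h5 : ⟪b, y⟫ * (igam κ x - igam κ y) ≤ ‖b‖ * R * (2 * κ * R * ‖x - y‖) := by
        refine (le_abs_self _).trans ?_
        rw [abs_mul]; gcongr
      have h6 : ‖b‖ * R * (2 * κ * R * ‖x - y‖) = ‖b‖ * ‖x - y‖ / 8 := by
        have : ‖b‖ * R * (2 * κ * R * ‖x - y‖) = 2 * (κ * R ^ 2) * (‖b‖ * ‖x - y‖) := by ring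
        rw [this, hκR]; ring
      have h7 : ⟪b, x - y⟫ * igam κ x ≤ ‖b‖ * ‖x - y‖ * 2 := by
        refine (mul_le_mul_of_nonneg_right h3 h0.le).trans (by gcongr)
      have h8 : 0 ≤ ‖b‖ * ‖x - y‖ := by positivity
      calc κ / 18 * ⟪b, x⟫ * igam κ x - κ / 18 * ⟪b, y⟫ * igam κ y
          = κ / 18 * (⟪b, x - y⟫ * igam κ x + ⟪b, y⟫ * (igam κ x - igam κ y)) := by
            rw [inner_sub_right]; ring
        _ ≤ κ / 18 * (3 * (‖b‖ * ‖x - y‖)) := by gcongr; linarith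
        _ = _ := by ring) hα hβ
  have e : ∀ S : Set (E d), ∫ x in S, κ / 18 * ⟪b, x⟫ * igam κ x * gam κ x ∂ρ =
      κ / 18 * ⟪b, ∫ x in S, x ∂ρ⟫ := by
    intro S
    simp only [mul_assoc (κ / 18 * _), igam_mul, mul_one]
    rw [integral_const_mul, integral_inner (h.integrable continuous_id').integrableOn]
  rw [e, e] at key
  refine le_trans (le_of_eq ?_) key
  congr 1
  have e2 : κ / 18 * ⟪b, ∫ x in A, x ∂ρ⟫ / (∫ x in A, gam κ x ∂ρ) -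
      κ / 18 * ⟪b, ∫ x in B, x ∂ρ⟫ / (∫ x in B, gam κ x ∂ρ) = κ / 18 * ‖b‖ ^ 2 := by
    rw [← real_inner_self_eq_norm_sq]
    conv_rhs => rw [hb, inner_sub_right, inner_smul_right, inner_smul_right, ← hb]
    ring
  rw [e2]; field_simp; ring

lemma alg2 {V : Type*} [NormedAddCommGroup V] [NormedSpace ℝ V] {p q a b R : ℝ} {M N : V}
    (hp : 0 < p) (hq : 0 < q) (ha : p ^ 2 ≤ a) (hb : q ^ 2 ≤ b) (hb2 : b ≤ 2 * q ^ 2)
    (hab : a ≤ 2 * b) (hba : b ≤ 2 * a) (hR : 0 < R) (hN : ‖N‖ ≤ R * b) :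
    ‖M - N‖ ^ 2 / a ≤ 4 * (p * q * ‖(p ^ 2)⁻¹ • M - (q ^ 2)⁻¹ • N‖ ^ 2) +
      48 * R ^ 2 * (p - q) ^ 2 := by
  set w := (p ^ 2)⁻¹ • M - (q ^ 2)⁻¹ • N with hw
  have hp2 : 0 < p ^ 2 := by positivity
  have hq2 : 0 < q ^ 2 := by positivity
  have ha0 : 0 < a := by linarith
  have e : M - N = p ^ 2 • w + ((p ^ 2 - q ^ 2) / q ^ 2) • N := by
    rw [hw, smul_sub, smul_smul, smul_smul, mul_inv_cancel₀ hp2.ne', one_smul, sub_add, ← sub_smul]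
    congr 1
    have : p ^ 2 * (q ^ 2)⁻¹ - (p ^ 2 - q ^ 2) / q ^ 2 = 1 := by field_simp; ring
    rw [this, one_smul]
  have h1 : ‖M - N‖ ≤ p ^ 2 * ‖w‖ + 2 * R * |p ^ 2 - q ^ 2| := by
    rw [e]
    refine (norm_add_le _ _).trans (add_le_add ?_ ?_)
    · rw [norm_smul, Real.norm_of_nonneg hp2.le]
    · rw [norm_smul, Real.norm_eq_abs, abs_div, abs_of_pos hq2]
      have : ‖N‖ ≤ R * (2 * q ^ 2) := hN.trans (by gcongr)
      calc |p ^ 2 - q ^ 2| / q ^ 2 * ‖N‖ ≤ |p ^ 2 - q ^ 2| / q ^ 2 * (R * (2 * q ^ 2)) := by gcongr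
        _ = _ := by field_simp
  have h2 : ‖M - N‖ ^ 2 ≤ 2 * (p ^ 2 * ‖w‖) ^ 2 + 2 * (2 * R * |p ^ 2 - q ^ 2|) ^ 2 := by
    have := pow_le_pow_left₀ (norm_nonneg _) h1 2
    nlinarith [sq_nonneg (p ^ 2 * ‖w‖ - 2 * R * |p ^ 2 - q ^ 2|)]
  have hpq : p ≤ 2 * q := by nlinarith
  have h3 : 2 * (p ^ 2 * ‖w‖) ^ 2 ≤ 4 * (p * q * ‖w‖ ^ 2) * a := by
    have h4 : p ^ 2 * p ^ 2 ≤ (2 * (p * q)) * a :=
      mul_le_mul (by nlinarith) ha hp2.le (by positivity)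
    have h5 := mul_le_mul_of_nonneg_right h4 (sq_nonneg ‖w‖)
    nlinarith
  have h6 : 2 * (2 * R * |p ^ 2 - q ^ 2|) ^ 2 ≤ 48 * R ^ 2 * (p - q) ^ 2 * a := by
    rw [mul_pow, sq_abs]
    have h7 : (p + q) ^ 2 ≤ 6 * a := by nlinarith [sq_nonneg (p - q)]
    have h8 : (p ^ 2 - q ^ 2) ^ 2 = (p - q) ^ 2 * (p + q) ^ 2 := by ring
    rw [h8]
    have h9 := mul_le_mul_of_nonneg_left h7 (show 0 ≤ R ^ 2 * (p - q) ^ 2 by positivity)
    nlinarith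
  rw [div_le_iff₀ ha0]
  nlinarith

theorem key_moment {ρ : Measure (E d)} {R : ℝ} (h : Src ρ R) {ι : Type*} [Fintype ι]
    {A B C : ι → Set (E d)}
    (hA : ∀ i, MeasurableSet (A i)) (hB : ∀ i, MeasurableSet (B i)) (hC : ∀ i, MeasurableSet (C i))
    (hm : ∀ i, ∀ x ∈ A i, ∀ y ∈ B i, (1 / 2 : ℝ) • (x + y) ∈ C i)
    (sA : ∀ w : E d → ℝ, Continuous w → ∑ i, ∫ x in A i, w x ∂ρ = ∫ x, w x ∂ρ)
    (sB : ∀ w : E d → ℝ, Continuous w → ∑ i, ∫ x in B i, w x ∂ρ = ∫ x, w x ∂ρ)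
    (sC : ∀ w : E d → ℝ, Continuous w → ∑ i, ∫ x in C i, w x ∂ρ = ∫ x, w x ∂ρ)
    (ha : ∀ i, 0 < ρ.real (A i)) (hab : ∀ i, ρ.real (A i) ≤ 2 * ρ.real (B i))
    (hba : ∀ i, ρ.real (B i) ≤ 2 * ρ.real (A i)) :
    ∑ i, ‖(∫ x in A i, x ∂ρ) - ∫ x in B i, x ∂ρ‖ ^ 2 / ρ.real (A i) ≤
      20000 * R ^ 2 * ∑ i, (ρ.real (A i) - ρ.real (B i)) ^ 2 / ρ.real (A i) := by
  have hR := h.pos
  set κ : ℝ := 1 / (16 * R ^ 2) with hκd
  have hκ : 0 < κ := by positivity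
  have hκR : κ * R ^ 2 = 1 / 16 := by rw [hκd]; field_simp
  set α : ι → ℝ := fun i => ∫ x in A i, gam κ x ∂ρ with hα
  set β : ι → ℝ := fun i => ∫ x in B i, gam κ x ∂ρ with hβ
  set c : ι → ℝ := fun i => ∫ x in C i, gam κ x ∂ρ with hc
  have hα1 : ∀ i, α i ≤ ρ.real (A i) := fun i => int_gam_le h hκ _
  have hβ1 : ∀ i, β i ≤ ρ.real (B i) := fun i => int_gam_le h hκ _
  have hα2 : ∀ i, ρ.real (A i) ≤ 2 * α i := fun i => le_int_gam h hκ hκR _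
  have hβ2 : ∀ i, ρ.real (B i) ≤ 2 * β i := fun i => le_int_gam h hκ hκR _
  have hα0 : ∀ i, 0 < α i := fun i => by linarith [ha i, hα2 i]
  have hβ0 : ∀ i, 0 < β i := fun i => by linarith [ha i, hβ2 i, hab i]
  have hp : ∀ i, 0 < √(α i) := fun i => Real.sqrt_pos.2 (hα0 i)
  have hq : ∀ i, 0 < √(β i) := fun i => Real.sqrt_pos.2 (hβ0 i)
  have hp2 : ∀ i, √(α i) ^ 2 = α i := fun i => Real.sq_sqrt (hα0 i).le
  have hq2 : ∀ i, √(β i) ^ 2 = β i := fun i => Real.sq_sqrt (hβ0 i).le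
  set H := ∑ i, (√(α i) - √(β i)) ^ 2 / 2 with hH
  have hH2 : H = ∑ i, (c i - √(α i) * √(β i)) := by
    have e1 : ∑ i, c i = ∑ i, (α i + β i) / 2 := by
      rw [← Finset.sum_div, Finset.sum_add_distrib, sA _ (gam_cont κ), sB _ (gam_cont κ),
        sC _ (gam_cont κ)]; ring
    rw [Finset.sum_sub_distrib, e1, ← Finset.sum_sub_distrib]
    refine Finset.sum_congr rfl fun i _ => ?_
    nlinarith [hp2 i, hq2 i]
  have c0 : ∑ i, √(α i) * √(β i) * (ρ.real (A i) / α i - ρ.real (B i) / β i) ^ 2 / 2 ≤ H := by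
    rw [hH2]
    refine Finset.sum_le_sum fun i _ => ?_
    have := cell0 h (hA i) (hB i) (hC i) (hm i) hκ hκR (hα0 i) (hβ0 i)
    linarith
  have c1 : ∑ i, κ / 72 * (√(α i) * √(β i) * ‖(α i)⁻¹ • (∫ x in A i, x ∂ρ) -
      (β i)⁻¹ • (∫ x in B i, x ∂ρ)‖ ^ 2) ≤ H := by
    rw [hH2]
    refine Finset.sum_le_sum fun i _ => ?_
    have := cell1 h (hA i) (hB i) (hC i) (hm i) hκ hκR (hα0 i) (hβ0 i)
    linarith
  set S := ∑ i, (ρ.real (A i) - ρ.real (B i)) ^ 2 / ρ.real (A i) with hS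
  have c2 : H ≤ 4 * S := by
    have h1 : H ≤ ∑ i, (2 * ((ρ.real (A i) - ρ.real (B i)) ^ 2 / ρ.real (A i)) +
        (√(α i) * √(β i) * (ρ.real (A i) / α i - ρ.real (B i) / β i) ^ 2 / 2) / 2) := by
      refine Finset.sum_le_sum fun i _ => ?_
      have h2 := alg1 (hp i) (hq i) (a := ρ.real (A i)) (b := ρ.real (B i))
        (by rw [hp2]; exact hα1 i) (by rw [hq2]; exact hβ1 i)
      rw [hp2, hq2] at h2
      have h3 : (ρ.real (A i) - ρ.real (B i)) ^ 2 / α i ≤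
          2 * ((ρ.real (A i) - ρ.real (B i)) ^ 2 / ρ.real (A i)) := by
        rw [← mul_div_assoc, div_le_div_iff₀ (hα0 i) (ha i)]
        nlinarith [mul_le_mul_of_nonneg_left (hα2 i) (sq_nonneg (ρ.real (A i) - ρ.real (B i)))]
      linarith
    rw [Finset.sum_add_distrib, ← Finset.mul_sum, ← Finset.sum_div, ← hS] at h1
    linarith
  rw [← Finset.mul_sum] at c1
  have c3 : ∑ i, ‖(∫ x in A i, x ∂ρ) - ∫ x in B i, x ∂ρ‖ ^ 2 / ρ.real (A i) ≤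
      ∑ i, (4 * (√(α i) * √(β i) * ‖(α i)⁻¹ • (∫ x in A i, x ∂ρ) -
        (β i)⁻¹ • (∫ x in B i, x ∂ρ)‖ ^ 2) + 96 * R ^ 2 * ((√(α i) - √(β i)) ^ 2 / 2)) := by
    refine Finset.sum_le_sum fun i _ => ?_
    have := alg2 (M := ∫ x in A i, x ∂ρ) (hp i) (hq i) (by rw [hp2]; exact hα1 i)
      (by rw [hq2]; exact hβ1 i) (by rw [hq2]; exact hβ2 i) (hab i) (hba i) hR
      (norm_moment_le h (B i))
    rw [hp2, hq2] at this
    linarith
  rw [Finset.sum_add_distrib, ← Finset.mul_sum, ← Finset.mul_sum, ← hH] at c3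
  set T := ∑ i, (√(α i) * √(β i) * ‖(α i)⁻¹ • (∫ x in A i, x ∂ρ) -
        (β i)⁻¹ • (∫ x in B i, x ∂ρ)‖ ^ 2)
  have hS0 : 0 ≤ S := Finset.sum_nonneg fun i _ => div_nonneg (sq_nonneg _) (ha i).le
  have c4 : T ≤ 1152 * R ^ 2 * H := by
    have : T = 1152 * R ^ 2 * (κ / 72 * T) := by
      have : 1152 * R ^ 2 * (κ / 72 * T) = 16 * (κ * R ^ 2) * T := by ring
      rw [this, hκR]; ring
    rw [this]; gcongr
  have c5 : R ^ 2 * H ≤ R ^ 2 * (4 * S) := by gcongr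
  have : 0 ≤ R ^ 2 * S := by positivity
  nlinarith

end Crest.Agent.H0082
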