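import Crest.Agent.H0082.Key2

/-! Semi-discrete optimal transport: Laguerre cells, weak duality, existence of weights. -/

set_option autoImplicit false

namespace Crest.Agent.H0082

open MeasureTheory Set Filter Topology
open scoped ENNReal NNReal RealInnerProductSpace

variable {d : ℕ} {ι : Type*} [Fintype ι] [Nonempty ι]

/-- The potential `max_i (⟪x, y i⟫ - ψ i)`. -/
noncomputable def pot (y : ι → E d) (ψ : ι → ℝ) (x : E d) : ℝ :=
  Finset.univ.sup' Finset.univ_nonempty fun i => ⟪x, y i⟫ - ψ i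

/-- Laguerre cell. -/
def Lag (y : ι → E d) (ψ : ι → ℝ) (i : ι) : Set (E d) :=
  {x | ∀ j, ⟪x, y j⟫ - ψ j ≤ ⟪x, y i⟫ - ψ i}

lemma le_pot (y : ι → E d) (ψ : ι → ℝ) (x : E d) (i : ι) : ⟪x, y i⟫ - ψ i ≤ pot y ψ x :=
  Finset.le_sup' (fun i => ⟪x, y i⟫ - ψ i) (Finset.mem_univ i)

lemma pot_eq {y : ι → E d} {ψ : ι → ℝ} {x : E d} {i : ι} (hx : x ∈ Lag y ψ i) :
    pot y ψ x = ⟪x, y i⟫ - ψ i :=
  le_antisymm (Finset.sup'_le _ _ fun j _ => hx j) (le_pot y ψ x i)

lemma exists_lag (y : ι → E d) (ψ : ι → ℝ) (x : E d) : ∃ i, x ∈ Lag y ψ i := by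
  obtain ⟨i, -, hi⟩ := Finset.exists_max_image Finset.univ (fun i => ⟪x, y i⟫ - ψ i)
    Finset.univ_nonempty
  exact ⟨i, fun j => hi j (Finset.mem_univ j)⟩

lemma pot_cont (y : ι → E d) (ψ : ι → ℝ) : Continuous (pot y ψ) :=
  Continuous.finset_sup'_apply Finset.univ_nonempty fun i _ => by fun_prop

omit [Nonempty ι] in
lemma lag_meas (y : ι → E d) (ψ : ι → ℝ) (i : ι) : MeasurableSet (Lag y ψ i) := by
  have : Lag y ψ i = ⋂ j, {x | ⟪x, y j⟫ - ψ j ≤ ⟪x, y i⟫ - ψ i} := by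
    ext x; simp [Lag]
  rw [this]
  exact MeasurableSet.iInter fun j => measurableSet_le (by fun_prop) (by fun_prop)

omit [Fintype ι] [Nonempty ι] in
lemma lag_mid {y : ι → E d} {ψ ψ' : ι → ℝ} {i : ι} {x x' : E d} (hx : x ∈ Lag y ψ i)
    (hx' : x' ∈ Lag y ψ' i) : (1 / 2 : ℝ) • (x + x') ∈ Lag y (fun j => (ψ j + ψ' j) / 2) i := by
  intro j
  have h1 := hx j
  have h2 := hx' j
  simp only [inner_smul_left, inner_add_left, conj_trivial]
  linarith

lemma hyperplane_null {v : E d} (hv : v ≠ 0) (c : ℝ) : volume {x : E d | ⟪x, v⟫ = c} = 0 := by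
  have hn : ‖v‖ ^ 2 ≠ 0 := pow_ne_zero 2 (norm_ne_zero_iff.2 hv)
  have h1 : LinearMap.ker (innerSL ℝ v).toLinearMap ≠ ⊤ := by
    intro h
    have : v ∈ LinearMap.ker (innerSL ℝ v).toLinearMap := by rw [h]; trivial
    simp at this
    exact hv this
  have h2 := Measure.addHaar_submodule volume _ h1
  rw [← measure_preimage_add_right volume (-((c / ‖v‖ ^ 2) • v))] at h2
  convert h2 using 2
  ext x
  simp only [mem_ofPred_eq, mem_preimage, SetLike.mem_coe, LinearMap.mem_ker,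
    ContinuousLinearMap.coe_coe, innerSL_apply_apply, inner_add_right, inner_neg_right,
    inner_smul_right, real_inner_self_eq_norm_sq]
  rw [div_mul_cancel₀ _ hn, real_inner_comm]
  constructor <;> intro h <;> linarith

omit [Nonempty ι] in
lemma ae_distinct {ρ : Measure (E d)} {R : ℝ} (h : Src ρ R) {y : ι → E d}
    (hy : Function.Injective y) (ψ : ι → ℝ) :
    ∀ᵐ x ∂ρ, ∀ i j, i ≠ j → ⟪x, y i⟫ - ψ i ≠ ⟪x, y j⟫ - ψ j := by
  refine h.ac.ae_le ?_
  change ∀ᵐ x : E d, ∀ i j, i ≠ j → ⟪x, y i⟫ - ψ i ≠ ⟪x, y j⟫ - ψ j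
  rw [ae_all_iff]; intro i
  rw [ae_all_iff]; intro j
  by_cases hij : i = j
  · simp [hij]
  · have hv : y i - y j ≠ 0 := sub_ne_zero.2 fun h => hij (hy h)
    have := hyperplane_null hv (ψ i - ψ j)
    rw [ae_iff]
    refine measure_mono_null ?_ this
    intro x hx
    simp only [mem_ofPred_eq, Classical.not_imp, not_not] at hx ⊢
    rw [inner_sub_right]; linarith [hx.2]

lemma lag_sum {ρ : Measure (E d)} {R : ℝ} (h : Src ρ R) {y : ι → E d}
    (hy : Function.Injective y) (ψ : ι → ℝ) {F : Type*} [NormedAddCommGroup F] [NormedSpace ℝ F]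
    {w : E d → F} (hw : Integrable w ρ) :
    ∑ i, ∫ x in Lag y ψ i, w x ∂ρ = ∫ x, w x ∂ρ := by
  simp_rw [← integral_indicator (lag_meas y ψ _)]
  rw [← integral_finsetSum _ fun i _ => hw.indicator (lag_meas y ψ i)]
  refine integral_congr_ae ?_
  filter_upwards [ae_distinct h hy ψ] with x hx
  obtain ⟨i, hi⟩ := exists_lag y ψ x
  rw [Finset.sum_eq_single i]
  · exact indicator_of_mem hi _
  · intro j _ hj
    have : x ∉ Lag y ψ j := fun hj' => hx j i hj (le_antisymm (hi j) (hj' i))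
    exact indicator_of_notMem this _
  · simp

lemma pot_lip (y : ι → E d) (ψ ψ' : ι → ℝ) (x : E d) {c : ℝ} (hc : ∀ i, |ψ i - ψ' i| ≤ c) :
    |pot y ψ x - pot y ψ' x| ≤ c := by
  obtain ⟨i, hi⟩ := exists_lag y ψ x
  obtain ⟨j, hj⟩ := exists_lag y ψ' x
  have h1 := le_pot y ψ' x i
  have h2 := le_pot y ψ x j
  have h3 := abs_le.1 (hc i)
  have h4 := abs_le.1 (hc j)
  rw [abs_le]
  constructor
  · rw [pot_eq hj]; linarith
  · rw [pot_eq hi]; linarith

/-- The dual functional without the linear term. -/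
noncomputable def Phi (ρ : Measure (E d)) (y : ι → E d) (ψ : ι → ℝ) : ℝ := ∫ x, pot y ψ x ∂ρ

lemma Phi_cont {ρ : Measure (E d)} {R : ℝ} (h : Src ρ R) (y : ι → E d) :
    Continuous (Phi ρ y) := by
  have := h.prob
  refine LipschitzWith.continuous (K := 1) (LipschitzWith.of_dist_le_mul fun ψ ψ' => ?_)
  rw [Real.dist_eq, Phi, Phi, ← integral_sub (h.integrable (pot_cont _ _))
    (h.integrable (pot_cont _ _))]
  have := norm_integral_le_of_norm_le_const (μ := ρ) (f := fun x => pot y ψ x - pot y ψ' x)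
    (C := dist ψ ψ') (Eventually.of_forall fun x =>
      pot_lip y ψ ψ' x fun i => by rw [← Real.dist_eq]; exact dist_le_pi_dist ψ ψ' i)
  simpa using this

lemma pot_deriv [DecidableEq ι] {y : ι → E d} (ψ : ι → ℝ) (i : ι) {x : E d}
    (hx : ∀ i j, i ≠ j → ⟪x, y i⟫ - ψ i ≠ ⟪x, y j⟫ - ψ j) :
    HasDerivAt (fun t : ℝ => pot y (ψ + t • Pi.single i 1) x)
      (-(Lag y ψ i).indicator (fun _ => (1 : ℝ)) x) 0 := by
  obtain ⟨k, hk⟩ := exists_lag y ψ x
  have hev : ∀ᶠ t in 𝓝 (0 : ℝ), x ∈ Lag y (ψ + t • Pi.single i 1) k := by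
    refine eventually_all.2 fun j => ?_
    by_cases hjk : j = k
    · subst hjk; simp
    · have hlt : ⟪x, y j⟫ - ψ j < ⟪x, y k⟫ - ψ k := lt_of_le_of_ne (hk j) (hx j k hjk)
      have c1 : Continuous fun t : ℝ => ⟪x, y j⟫ - (ψ + t • (Pi.single i 1 : ι → ℝ)) j := by
        simp only [Pi.add_apply, Pi.smul_apply]; fun_prop
      have c2 : Continuous fun t : ℝ => ⟪x, y k⟫ - (ψ + t • (Pi.single i 1 : ι → ℝ)) k := by
        simp only [Pi.add_apply, Pi.smul_apply]; fun_prop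
      have := (c1.continuousAt (x := 0)).eventually_lt (c2.continuousAt) (by simpa using hlt)
      exact this.mono fun t ht => ht.le
  have hd : HasDerivAt (fun t : ℝ => ⟪x, y k⟫ - (ψ k + t * (Pi.single i 1 : ι → ℝ) k))
      (-(Lag y ψ i).indicator (fun _ => (1 : ℝ)) x) 0 := by
    have h1 := (((hasDerivAt_id (0 : ℝ)).mul_const ((Pi.single i 1 : ι → ℝ) k)).const_add
      (ψ k)).const_sub ⟪x, y k⟫
    refine h1.congr_deriv ?_
    by_cases hki : k = i
    · subst hki; simp [hk]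
    · have : x ∉ Lag y ψ i := fun hi => hx k i hki (le_antisymm (hi k) (hk i))
      simp [hki, this]
  refine hd.congr_of_eventuallyEq ?_
  filter_upwards [hev] with t ht
  rw [pot_eq ht]; simp

lemma pot_lip' [DecidableEq ι] (y : ι → E d) (ψ : ι → ℝ) (i : ι) (x : E d) :
    LipschitzWith 1 (fun t : ℝ => pot y (ψ + t • Pi.single i 1) x) := by
  refine LipschitzWith.of_dist_le_mul fun s t => ?_
  rw [Real.dist_eq, Real.dist_eq]
  refine pot_lip _ _ _ _ fun j => ?_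
  by_cases hj : j = i
  · subst hj; simp
  · simp [hj]

lemma deriv_int {α : Type*} [MeasurableSpace α] {μ : Measure α} [IsProbabilityMeasure μ] {F : ℝ → α → ℝ} {F' : α → ℝ}
    (h1 : ∀ t, AEStronglyMeasurable (F t) μ) (h2 : Integrable (F 0) μ)
    (h3 : AEStronglyMeasurable F' μ) (h4 : ∀ a, LipschitzWith 1 (F · a))
    (h5 : ∀ᵐ a ∂μ, HasDerivAt (F · a) (F' a) 0) :
    HasDerivAt (fun x ↦ ∫ a, F x a ∂μ) (∫ a, F' a ∂μ) 0 :=
  (hasDerivAt_integral_of_dominated_loc_of_lip (bound := fun _ => 1) univ_mem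
    (Eventually.of_forall h1) h2 h3 (Eventually.of_forall fun a => by simpa using h4 a)
    (integrable_const _) h5).2

lemma Phi_deriv [DecidableEq ι] {ρ : Measure (E d)} {R : ℝ} (h : Src ρ R) {y : ι → E d}
    (hy : Function.Injective y) (ψ : ι → ℝ) (i : ι) :
    HasDerivAt (fun t : ℝ => Phi ρ y (ψ + t • Pi.single i 1)) (-ρ.real (Lag y ψ i)) 0 := by
  have := h.prob
  have hmeas : Measurable fun x => -(Lag y ψ i).indicator (fun _ => (1 : ℝ)) x :=
    (measurable_const.indicator (lag_meas y ψ i)).neg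
  have h2 : ∀ᵐ x ∂ρ, HasDerivAt (fun t : ℝ => pot y (ψ + t • Pi.single i 1) x)
      (-(Lag y ψ i).indicator (fun _ => (1 : ℝ)) x) 0 :=
    (ae_distinct h hy ψ).mono fun x hx => pot_deriv ψ i hx
  have h0 : ∀ t : ℝ, Integrable (fun x => pot y (ψ + t • Pi.single i 1) x) ρ := fun t =>
    h.integrable (pot_cont _ _)
  have key := deriv_int (μ := ρ)
    (F := fun t x => pot y (ψ + t • Pi.single i 1) x)
    (F' := fun x => -(Lag y ψ i).indicator (fun _ => (1 : ℝ)) x)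
    (fun t => (h0 t).1) (h0 0) hmeas.aestronglyMeasurable (pot_lip' y ψ i) h2
  have e : ∫ x, -(Lag y ψ i).indicator (fun _ => (1 : ℝ)) x ∂ρ = -ρ.real (Lag y ψ i) := by
    rw [integral_neg, integral_indicator (lag_meas y ψ i)]
    simp
  rw [e] at key
  exact key

lemma mass_of_min [DecidableEq ι] {ρ : Measure (E d)} {R : ℝ} (h : Src ρ R) {y : ι → E d}
    (hy : Function.Injective y) {P : (ι → ℝ) → ℝ} {ψ : ι → ℝ}
    (hmin : ∀ ψ', Phi ρ y ψ + P ψ ≤ Phi ρ y ψ' + P ψ') {i : ι} {p : ℝ}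
    (hP : HasDerivAt (fun t : ℝ => P (ψ + t • Pi.single i 1)) p 0) :
    ρ.real (Lag y ψ i) = p := by
  have h1 := (Phi_deriv h hy ψ i).add hP
  have h2 : IsLocalMin (fun t : ℝ => Phi ρ y (ψ + t • Pi.single i 1) + P (ψ + t • Pi.single i 1))
      0 := Eventually.of_forall fun t => by simpa using hmin _
  have := h2.hasDerivAt_eq_zero h1
  linarith

lemma Phi_lower {ρ : Measure (E d)} {R : ℝ} (h : Src ρ R) (y : ι → E d) :
    ∃ B : ℝ, ∀ ψ j, -B - ψ j ≤ Phi ρ y ψ := by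
  have := h.prob
  refine ⟨R * ∑ i, ‖y i‖, fun ψ j => ?_⟩
  have : ∫ _, (-(R * ∑ i, ‖y i‖) - ψ j) ∂ρ ≤ Phi ρ y ψ := by
    refine integral_mono_ae (integrable_const _) (h.integrable (pot_cont _ _)) ?_
    filter_upwards [h.ball] with x hx
    refine le_trans ?_ (le_pot y ψ x j)
    have h1 := abs_le.1 (abs_real_inner_le_norm x (y j))
    have h2 : ‖y j‖ ≤ ∑ i, ‖y i‖ :=
      Finset.single_le_sum (f := fun i => ‖y i‖) (fun i _ => norm_nonneg _) (Finset.mem_univ j)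
    have h3 : ‖x‖ * ‖y j‖ ≤ R * ∑ i, ‖y i‖ := mul_le_mul hx h2 (norm_nonneg _) h.pos.le
    linarith
  simpa using this

/-- `ψ` realises the masses `m`. -/
def Sol (ρ : Measure (E d)) (y : ι → E d) (m ψ : ι → ℝ) : Prop := ∀ i, ρ.real (Lag y ψ i) = m i

lemma lag_mass_sum {ρ : Measure (E d)} {R : ℝ} (h : Src ρ R) {y : ι → E d}
    (hy : Function.Injective y) (ψ : ι → ℝ) : ∑ i, ρ.real (Lag y ψ i) = 1 := by
  have := h.prob
  have := lag_sum h hy ψ (integrable_const (1 : ℝ))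
  simpa using this

omit [Nonempty ι] in
lemma hasDerivAt_sum_single [DecidableEq ι] (m ψ : ι → ℝ) (i : ι) :
    HasDerivAt (fun t : ℝ => ∑ j, m j * (ψ + t • (Pi.single i 1 : ι → ℝ)) j) (m i) 0 := by
  have : (fun t : ℝ => ∑ j, m j * (ψ + t • (Pi.single i 1 : ι → ℝ)) j) =
      fun t => ∑ j, m j * ψ j + t * m i := by
    funext t
    simp only [Pi.add_apply, Pi.smul_apply, smul_eq_mul, mul_add, Finset.sum_add_distrib]
    congr 1
    rw [Finset.sum_eq_single i] <;> simp +contextual [mul_comm]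
  rw [this]
  simpa using ((hasDerivAt_id (0 : ℝ)).mul_const (m i)).const_add (∑ j, m j * ψ j)

theorem exists_sol {ρ : Measure (E d)} {R : ℝ} (h : Src ρ R) {y : ι → E d}
    (hy : Function.Injective y) {m : ι → ℝ} (hm : ∀ i, 0 < m i) (hs : ∑ i, m i = 1) :
    ∃ ψ, Sol ρ y m ψ := by
  classical
  obtain ⟨B, hB⟩ := Phi_lower h y
  set P : (ι → ℝ) → ℝ := fun ψ => ∑ j, m j * ψ j + (∑ j, m j * ψ j) ^ 2 / 2 with hP
  have hc : Continuous fun ψ => Phi ρ y ψ + P ψ := (Phi_cont h y).add (by fun_prop)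
  obtain ⟨ψ, hψ⟩ := hc.exists_forall_le_of_isBounded 0 (by
    set c := Phi ρ y 0 + P 0 + B with hcd
    rw [isBounded_iff_forall_norm_le]
    refine ⟨(2 * |c| + 1) + |c| + ∑ j, |c| / m j, fun ψ hψ => ?_⟩
    simp only [mem_ofPred_eq] at hψ
    set s := ∑ j, m j * ψ j with hs'
    have h1 : ∀ j, s - ψ j + s ^ 2 / 2 ≤ c := fun j => by
      have := hB ψ j
      have e : P ψ = s + s ^ 2 / 2 := rfl
      linarith
    have h2 : ∑ j, m j * (s - ψ j + s ^ 2 / 2) ≤ ∑ j, m j * c :=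
      Finset.sum_le_sum fun j _ => mul_le_mul_of_nonneg_left (h1 j) (hm j).le
    have e1 : ∑ j, m j * (s - ψ j + s ^ 2 / 2) = s ^ 2 / 2 := by
      simp only [mul_add, mul_sub, Finset.sum_add_distrib, Finset.sum_sub_distrib,
        ← Finset.sum_mul, hs, ← hs']; ring
    rw [e1, ← Finset.sum_mul, hs] at h2
    have hca := le_abs_self c
    have h3 : |s| ≤ 2 * |c| + 1 := by
      rw [abs_le]; constructor <;> nlinarith [sq_nonneg (s - 1), sq_nonneg (s + 1)]
    have h4 : ∀ j, 0 ≤ ψ j - s + |c| := fun j => by nlinarith [h1 j, sq_nonneg s]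
    have e2 : ∑ j, m j * (ψ j - s + |c|) = |c| := by
      simp only [mul_add, mul_sub, Finset.sum_add_distrib, Finset.sum_sub_distrib,
        ← Finset.sum_mul, hs, ← hs']; ring
    have hsum : 0 ≤ ∑ j, |c| / m j :=
      Finset.sum_nonneg fun j _ => div_nonneg (abs_nonneg _) (hm j).le
    refine (pi_norm_le_iff_of_nonneg (by positivity)).2 fun i => ?_
    have h5 : m i * (ψ i - s + |c|) ≤ |c| := by
      exact (Finset.single_le_sum (f := fun j => m j * (ψ j - s + |c|))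
        (fun j _ => mul_nonneg (hm j).le (h4 j)) (Finset.mem_univ i)).trans e2.le
    have h6 : ψ i - s + |c| ≤ |c| / m i := by rw [le_div_iff₀ (hm i)]; linarith
    have h7 : |c| / m i ≤ ∑ j, |c| / m j :=
      Finset.single_le_sum (f := fun j => |c| / m j)
        (fun j _ => div_nonneg (abs_nonneg _) (hm j).le) (Finset.mem_univ i)
    have h8 := abs_le.1 h3
    have h9 := h4 i
    have := abs_nonneg c
    rw [Real.norm_eq_abs, abs_le]
    constructor <;> linarith)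
  have key : ∀ i, ρ.real (Lag y ψ i) = m i * (1 + ∑ j, m j * ψ j) := fun i => by
    refine mass_of_min h hy hψ ?_
    have h1 := hasDerivAt_sum_single m ψ i
    refine (h1.add ((h1.pow 2).div_const 2)).congr_deriv ?_
    simp; ring
  have h2 := lag_mass_sum h hy ψ
  simp only [key, ← Finset.sum_mul, hs] at h2
  refine ⟨ψ, fun i => ?_⟩
  rw [key i]; rw [one_mul] at h2; rw [h2, mul_one]

theorem exists_reg {ρ : Measure (E d)} {R : ℝ} (h : Src ρ R) {y : ι → E d}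
    (hy : Function.Injective y) {m : ι → ℝ} (hm : ∀ i, 0 < m i) (hs : ∑ i, m i = 1)
    (χ : ι → ℝ) {ε : ℝ} (hε : 0 < ε) :
    ∃ ψ, Sol ρ y (fun i => m i * (1 + ε * (ψ i - χ i))) ψ ∧ ∀ ψ',
      Phi ρ y ψ + ∑ j, m j * ψ j ≤
        Phi ρ y ψ' + ∑ j, m j * ψ' j + ε / 2 * ∑ j, m j * (ψ' j - χ j) ^ 2 := by
  classical
  obtain ⟨B, hB⟩ := Phi_lower h y
  set P : (ι → ℝ) → ℝ := fun ψ => ∑ j, m j * ψ j + ε / 2 * ∑ j, m j * (ψ j - χ j) ^ 2 with hP
  have hc : Continuous fun ψ => Phi ρ y ψ + P ψ := (Phi_cont h y).add (by fun_prop)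
  obtain ⟨ψ, hψ⟩ := hc.exists_forall_le_of_isBounded 0 (by
    set c := Phi ρ y 0 + P 0 + B with hcd
    rw [isBounded_iff_forall_norm_le]
    refine ⟨∑ j, (|χ j| + 1 + 2 * |c| / (ε * m j)), fun ψ hψ => ?_⟩
    simp only [mem_ofPred_eq] at hψ
    have h1 : -B ≤ Phi ρ y ψ + ∑ j, m j * ψ j := by
      have h2 : ∑ j, m j * (-B - ψ j) ≤ ∑ j, m j * Phi ρ y ψ :=
        Finset.sum_le_sum fun j _ => mul_le_mul_of_nonneg_left (hB ψ j) (hm j).le
      simp only [mul_sub, Finset.sum_sub_distrib, ← Finset.sum_mul, hs] at h2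
      linarith
    have h2 : ε / 2 * ∑ j, m j * (ψ j - χ j) ^ 2 ≤ |c| := by
      have e : P ψ = ∑ j, m j * ψ j + ε / 2 * ∑ j, m j * (ψ j - χ j) ^ 2 := rfl
      linarith [le_abs_self c]
    have hnn : ∀ j, 0 ≤ |χ j| + 1 + 2 * |c| / (ε * m j) := fun j => by
      have := hm j; positivity
    refine (pi_norm_le_iff_of_nonneg (Finset.sum_nonneg fun j _ => hnn j)).2 fun i => ?_
    refine le_trans ?_ (Finset.single_le_sum (f := fun j => |χ j| + 1 + 2 * |c| / (ε * m j))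
      (fun j _ => hnn j) (Finset.mem_univ i))
    have h3 : m i * (ψ i - χ i) ^ 2 ≤ ∑ j, m j * (ψ j - χ j) ^ 2 :=
      Finset.single_le_sum (f := fun j => m j * (ψ j - χ j) ^ 2)
        (fun j _ => mul_nonneg (hm j).le (sq_nonneg _)) (Finset.mem_univ i)
    have h4 : (ψ i - χ i) ^ 2 ≤ 2 * |c| / (ε * m i) := by
      rw [le_div_iff₀ (mul_pos hε (hm i))]; nlinarith
    have h5 := abs_le.1 (le_refl |χ i|)
    rw [Real.norm_eq_abs, abs_le]
    constructor <;> nlinarith [sq_nonneg (ψ i - χ i - 1), sq_nonneg (ψ i - χ i + 1)])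
  refine ⟨ψ, fun i => mass_of_min h hy hψ ?_, fun ψ' => ?_⟩
  · have h1 := hasDerivAt_sum_single m ψ i
    have h2 : HasDerivAt (fun t : ℝ => ∑ j, m j * ((ψ + t • (Pi.single i 1 : ι → ℝ)) j - χ j) ^ 2)
        (∑ j, m j * (2 * (ψ j - χ j) * (Pi.single i 1 : ι → ℝ) j)) 0 := by
      refine HasDerivAt.fun_sum fun j _ => HasDerivAt.const_mul _ ?_
      have := ((((hasDerivAt_id (0 : ℝ)).mul_const ((Pi.single i 1 : ι → ℝ) j)).const_add
        (ψ j)).sub_const (χ j)).pow 2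
      refine this.congr_deriv ?_
      simp
    refine (h1.add (h2.const_mul (ε / 2))).congr_deriv ?_
    rw [Finset.sum_eq_single i] <;> simp +contextual
    ring
  · have h1 := hψ ψ'
    have h2 : 0 ≤ ε / 2 * ∑ j, m j * (ψ j - χ j) ^ 2 :=
      mul_nonneg (by positivity) (Finset.sum_nonneg fun j _ => mul_nonneg (hm j).le (sq_nonneg _))
    simp only [hP] at h1
    linarith

end Crest.Agent.H0082
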