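import Crest.Agent.H0082.Lag

/-! Mixed differences of the semi-discrete value, and Lipschitz stability of potentials. -/

set_option autoImplicit false

namespace Crest.Agent.H0082

open MeasureTheory Set Filter Topology
open scoped ENNReal NNReal RealInnerProductSpace

variable {d : ℕ} {ι : Type*} [Fintype ι] [Nonempty ι]

/-- First moments of the cells. -/
noncomputable def Mom (ρ : Measure (E d)) (y : ι → E d) (ψ : ι → ℝ) (i : ι) : E d :=
  ∫ x in Lag y ψ i, x ∂ρ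

/-- The dual functional. -/
noncomputable def J (ρ : Measure (E d)) (y : ι → E d) (m ψ : ι → ℝ) : ℝ :=
  Phi ρ y ψ + ∑ j, m j * ψ j

omit [Nonempty ι] [Fintype ι] in
lemma int_aff {ρ : Measure (E d)} {R : ℝ} (h : Src ρ R) (S : Set (E d)) (v : E d) (c : ℝ) :
    ∫ x in S, (⟪x, v⟫ - c) ∂ρ = ⟪∫ x in S, x ∂ρ, v⟫ - ρ.real S * c := by
  have := h.prob
  rw [integral_sub (h.integrable (by fun_prop)).integrableOn (integrable_const _)]
  simp_rw [real_inner_comm v]
  rw [integral_inner (h.integrable continuous_id').integrableOn]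
  simp

lemma weak_dual {ρ : Measure (E d)} {R : ℝ} (h : Src ρ R) {y : ι → E d}
    (hy : Function.Injective y) {m ψ : ι → ℝ} (hs : Sol ρ y m ψ) (z : ι → E d) (χ : ι → ℝ) :
    ∑ i, ⟪Mom ρ y ψ i, z i⟫ ≤ J ρ z m χ := by
  unfold J Phi
  rw [← lag_sum h hy ψ (h.integrable (pot_cont z χ)), ← Finset.sum_add_distrib]
  refine Finset.sum_le_sum fun i _ => ?_
  have h1 : ∫ x in Lag y ψ i, (⟪x, z i⟫ - χ i) ∂ρ ≤ ∫ x in Lag y ψ i, pot z χ x ∂ρ :=
    integral_mono (h.integrable (by fun_prop)).integrableOn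
      (h.integrable (pot_cont z χ)).integrableOn fun x => le_pot z χ x i
  rw [int_aff h, hs i] at h1
  unfold Mom
  linarith

lemma strong_dual {ρ : Measure (E d)} {R : ℝ} (h : Src ρ R) {y : ι → E d}
    (hy : Function.Injective y) {m ψ : ι → ℝ} (hs : Sol ρ y m ψ) :
    J ρ y m ψ = ∑ i, ⟪Mom ρ y ψ i, y i⟫ := by
  unfold J Phi
  rw [← lag_sum h hy ψ (h.integrable (pot_cont y ψ)), ← Finset.sum_add_distrib]
  refine Finset.sum_congr rfl fun i _ => ?_
  rw [setIntegral_congr_fun (lag_meas y ψ i) (g := fun x => ⟪x, y i⟫ - ψ i)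
    (fun x hx => pot_eq hx), int_aff h, hs i]
  unfold Mom
  ring

lemma J_min {ρ : Measure (E d)} {R : ℝ} (h : Src ρ R) {y : ι → E d}
    (hy : Function.Injective y) {m ψ : ι → ℝ} (hs : Sol ρ y m ψ) (χ : ι → ℝ) :
    J ρ y m ψ ≤ J ρ y m χ := by
  rw [strong_dual h hy hs]; exact weak_dual h hy hs y χ

lemma mom_diff {ρ : Measure (E d)} {R : ℝ} (h : Src ρ R) {y : ι → E d}
    (hy : Function.Injective y) {m m' ψ ψ' : ι → ℝ} (hs : Sol ρ y m ψ) (hs' : Sol ρ y m' ψ')
    (hm : ∀ i, 0 < m i) (h1 : ∀ i, m i ≤ 2 * m' i) (h2 : ∀ i, m' i ≤ 2 * m i) (v : ι → E d) :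
    ∑ i, ⟪Mom ρ y ψ' i - Mom ρ y ψ i, v i⟫ ≤
      √(20000 * R ^ 2 * (∑ i, (m i - m' i) ^ 2 / m i) * ∑ i, m i * ‖v i‖ ^ 2) := by
  have key := key_moment h (A := Lag y ψ) (B := Lag y ψ') (C := Lag y fun j => (ψ j + ψ' j) / 2)
    (lag_meas _ _) (lag_meas _ _) (lag_meas _ _) (fun i x hx x' hx' => lag_mid hx hx')
    (fun w hw => lag_sum h hy _ (h.integrable hw)) (fun w hw => lag_sum h hy _ (h.integrable hw))
    (fun w hw => lag_sum h hy _ (h.integrable hw)) (fun i => by rw [hs i]; exact hm i)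
    (fun i => by rw [hs i, hs' i]; exact h1 i) (fun i => by rw [hs i, hs' i]; exact h2 i)
  simp only [hs _, hs' _] at key
  refine Real.le_sqrt_of_sq_le ?_ |>.trans' (le_abs_self _)
  have h3 : |∑ i, ⟪Mom ρ y ψ' i - Mom ρ y ψ i, v i⟫| ≤
      ∑ i, ‖Mom ρ y ψ i - Mom ρ y ψ' i‖ * ‖v i‖ := by
    refine (Finset.abs_sum_le_sum_abs _ _).trans (Finset.sum_le_sum fun i _ => ?_)
    rw [norm_sub_rev]; exact abs_real_inner_le_norm _ _
  refine (pow_le_pow_left₀ (abs_nonneg _) h3 2).trans ?_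
  have h4 := Finset.sum_sq_le_sum_mul_sum_of_sq_eq_mul Finset.univ
    (r := fun i => ‖Mom ρ y ψ i - Mom ρ y ψ' i‖ * ‖v i‖)
    (f := fun i => ‖Mom ρ y ψ i - Mom ρ y ψ' i‖ ^ 2 / m i) (g := fun i => m i * ‖v i‖ ^ 2)
    (fun i _ => div_nonneg (sq_nonneg _) (hm i).le) (fun i _ => mul_nonneg (hm i).le (sq_nonneg _))
    (fun i _ => by have := (hm i).ne'; field_simp)
  refine h4.trans (mul_le_mul_of_nonneg_right key ?_)
  exact Finset.sum_nonneg fun i _ => mul_nonneg (hm i).le (sq_nonneg _)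

/-- straight-line interpolation of the atoms -/
noncomputable def path (y z : ι → E d) (t : ℝ) (i : ι) : E d := y i + t • (z i - y i)

theorem mixed {ρ : Measure (E d)} {R : ℝ} (h : Src ρ R) {y z : ι → E d}
    (hyz : ∀ q : ℚ, Function.Injective (path y z q)) {m m' : ι → ℝ}
    (hm : ∀ i, 0 < m i) (hms : ∑ i, m i = 1) (hms' : ∑ i, m' i = 1)
    (h1 : ∀ i, m i ≤ 2 * m' i) (h2 : ∀ i, m' i ≤ 2 * m i) {ψ ψ' χ χ' : ι → ℝ}
    (s1 : Sol ρ y m ψ) (s2 : Sol ρ y m' ψ') (s3 : Sol ρ z m χ) (s4 : Sol ρ z m' χ') :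
    J ρ y m' ψ' - J ρ z m' χ' - (J ρ y m ψ - J ρ z m χ) ≤
      √(20000 * R ^ 2 * (∑ i, (m i - m' i) ^ 2 / m i) * ∑ i, m i * ‖y i - z i‖ ^ 2) := by
  set L := √(20000 * R ^ 2 * (∑ i, (m i - m' i) ^ 2 / m i) * ∑ i, m i * ‖y i - z i‖ ^ 2)
  have hm' : ∀ i, 0 < m' i := fun i => by linarith [hm i, h1 i]
  choose a ha using fun q : ℚ => exists_sol h (hyz q) hm' hms'
  choose b hb using fun q : ℚ => exists_sol h (hyz q) hm hms
  have p0 : path y z ((0 : ℚ) : ℝ) = y := by funext i; simp [path]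
  have p1 : path y z ((1 : ℚ) : ℝ) = z := by funext i; simp [path]
  have hy : Function.Injective y := p0 ▸ hyz 0
  have hz : Function.Injective z := p1 ▸ hyz 1
  set A : ℚ → ℝ := fun q => J ρ (path y z q) m' (a q) with hA
  set B : ℚ → ℝ := fun q => J ρ (path y z q) m (b q) with hB
  set p : ℚ → ℝ := fun q => ∑ i, ⟪Mom ρ (path y z q) (b q) i, y i - z i⟫ with hp
  have step : ∀ q r : ℚ, q ≤ r → (A q - B q) - (A r - B r) ≤ (r - q : ℝ) * (L + (p q - p r)) := by
    intro q r hqr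
    have hqr' : (0 : ℝ) ≤ r - q := by rw [sub_nonneg]; exact_mod_cast hqr
    have e : ∀ i, path y z q i - path y z r i = (r - q : ℝ) • (y i - z i) := fun i => by
      simp only [path]; module
    have k1 : A q - A r ≤ (r - q : ℝ) * ∑ i, ⟪Mom ρ (path y z q) (a q) i, y i - z i⟫ := by
      have := weak_dual h (hyz q) (ha q) (path y z r) (a r)
      have e1 := strong_dual h (hyz q) (ha q)
      have e2 : ∑ i, ⟪Mom ρ (path y z q) (a q) i, path y z q i⟫ -
          ∑ i, ⟪Mom ρ (path y z q) (a q) i, path y z r i⟫ =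
          (r - q : ℝ) * ∑ i, ⟪Mom ρ (path y z q) (a q) i, y i - z i⟫ := by
        rw [← Finset.sum_sub_distrib, Finset.mul_sum]
        refine Finset.sum_congr rfl fun i _ => ?_
        rw [← inner_sub_right, e, inner_smul_right]
      simp only [hA]; linarith
    have k2 : (r - q : ℝ) * p r ≤ B q - B r := by
      have := weak_dual h (hyz r) (hb r) (path y z q) (b q)
      have e1 := strong_dual h (hyz r) (hb r)
      have e2 : ∑ i, ⟪Mom ρ (path y z r) (b r) i, path y z q i⟫ -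
          ∑ i, ⟪Mom ρ (path y z r) (b r) i, path y z r i⟫ = (r - q : ℝ) * p r := by
        rw [← Finset.sum_sub_distrib, hp, Finset.mul_sum]
        refine Finset.sum_congr rfl fun i _ => ?_
        rw [← inner_sub_right, e, inner_smul_right]
      simp only [hB]; linarith
    have k3 := mom_diff h (hyz q) (hb q) (ha q) hm h1 h2 (fun i => y i - z i)
    simp only [inner_sub_left, Finset.sum_sub_distrib] at k3
    have k4 : ∑ i, ⟪Mom ρ (path y z q) (a q) i, y i - z i⟫ ≤ L + p q := by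
      simp only [hp]; linarith
    have k5 := mul_le_mul_of_nonneg_left k4 hqr'
    linarith
  have tele : ∀ N : ℕ, 0 < N → (A 0 - B 0) - (A 1 - B 1) ≤ L + (p 0 - p 1) / N := by
    intro N hN
    have hN' : (0 : ℝ) < N := by exact_mod_cast hN
    have : ∀ k : ℕ, (A 0 - B 0) - (A (k / N) - B (k / N)) ≤
        k * L / N + (p 0 - p (k / N)) / N := by
      intro k
      induction k with
      | zero => simp
      | succ k ih =>
        have := step (k / N) ((k + 1 : ℕ) / N) (by gcongr; omega)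
        have e : (((((k + 1 : ℕ) : ℚ) / N : ℚ) : ℝ) - (((k : ℚ) / N : ℚ) : ℝ)) = 1 / N := by
          push_cast; ring
        rw [e] at this
        have e2 : ((k + 1 : ℕ) : ℝ) * L / N + (p 0 - p (((k + 1 : ℕ) : ℚ) / N)) / N =
            (k * L / N + (p 0 - p (k / N)) / N) +
              1 / N * (L + (p (k / N) - p (((k + 1 : ℕ) : ℚ) / N))) := by
          push_cast; ring
        rw [e2]; linarith
    have h3 := this N
    have e : ((N : ℚ) / N) = 1 := div_self (by exact_mod_cast hN.ne')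
    rw [e, mul_div_cancel_left₀ _ hN'.ne'] at h3
    exact h3
  have lim : (A 0 - B 0) - (A 1 - B 1) ≤ L := by
    have t : Tendsto (fun N : ℕ => L + (p 0 - p 1) / N) atTop (𝓝 (L + 0)) :=
      tendsto_const_nhds.add (tendsto_const_div_atTop_nhds_zero_nat _)
    rw [add_zero] at t
    exact ge_of_tendsto t (eventually_atTop.2 ⟨1, fun N hN => tele N hN⟩)
  have a0 := ha 0
  have a1 := ha 1
  have b0 := hb 0
  have b1 := hb 1
  simp only [hA, hB] at lim
  rw [p0] at a0 b0 lim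
  rw [p1] at a1 b1 lim
  have e1 : J ρ y m' ψ' = J ρ y m' (a 0) := le_antisymm (J_min h hy s2 _) (J_min h hy a0 _)
  have e2 : J ρ y m ψ = J ρ y m (b 0) := le_antisymm (J_min h hy s1 _) (J_min h hy b0 _)
  have e3 : J ρ z m' χ' = J ρ z m' (a 1) := le_antisymm (J_min h hz s4 _) (J_min h hz a1 _)
  have e4 : J ρ z m χ = J ρ z m (b 1) := le_antisymm (J_min h hz s3 _) (J_min h hz b1 _)
  rw [e1, e2, e3, e4]; linarith

omit [Fintype ι] [Nonempty ι] in
lemma osc_of_pos {ρ : Measure (E d)} {R : ℝ} (h : Src ρ R) {y : ι → E d} (hy : ∀ i, ‖y i‖ ≤ R)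
    {ψ : ι → ℝ} {i : ι} (hi : 0 < ρ.real (Lag y ψ i)) (j : ι) : ψ i - ψ j ≤ 2 * R ^ 2 := by
  have hne : ρ (Lag y ψ i) ≠ 0 := by
    intro h0; simp [Measure.real, h0] at hi
  obtain ⟨x, hx, hxR⟩ := Measure.exists_mem_of_measure_ne_zero_of_ae hne (ae_restrict_of_ae h.ball)
  have h1 := hx j
  have h2 := abs_le.1 (abs_real_inner_le_norm x (y i))
  have h3 := abs_le.1 (abs_real_inner_le_norm x (y j))
  have h4 : ‖x‖ * ‖y i‖ ≤ R * R := mul_le_mul hxR (hy i) (norm_nonneg _) h.pos.le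
  have h5 : ‖x‖ * ‖y j‖ ≤ R * R := mul_le_mul hxR (hy j) (norm_nonneg _) h.pos.le
  nlinarith

lemma sq_int_le {ρ : Measure (E d)} {R : ℝ} (h : Src ρ R) {y z : ι → E d}
    (hy : Function.Injective y) {m ψ : ι → ℝ} (χ : ι → ℝ) (hs : Sol ρ y m ψ) :
    ∫ x, (max (pot y ψ x - pot z χ x) 0) ^ 2 ∂ρ ≤
      ∑ i, m i * (2 * R ^ 2 * ‖y i - z i‖ ^ 2 + 2 * (ψ i - χ i) ^ 2) := by
  have := h.prob
  have hc : Continuous fun x => (max (pot y ψ x - pot z χ x) 0) ^ 2 := by
    have := pot_cont y ψ; have := pot_cont z χ; fun_prop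
  rw [← lag_sum h hy ψ (h.integrable hc)]
  refine Finset.sum_le_sum fun i _ => ?_
  have h1 : ∫ x in Lag y ψ i, (max (pot y ψ x - pot z χ x) 0) ^ 2 ∂ρ ≤
      ∫ _ in Lag y ψ i, (2 * R ^ 2 * ‖y i - z i‖ ^ 2 + 2 * (ψ i - χ i) ^ 2) ∂ρ := by
    refine integral_mono_ae (h.integrable hc).integrableOn (integrable_const _) ?_
    filter_upwards [ae_restrict_of_ae h.ball, ae_restrict_mem (lag_meas y ψ i)] with x hx hxi
    have h2 := le_pot z χ x i
    have h3 : ⟪x, y i - z i⟫ ≤ R * ‖y i - z i‖ :=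
      (real_inner_le_norm _ _).trans (by gcongr)
    rw [inner_sub_right] at h3
    have h4 : max (pot y ψ x - pot z χ x) 0 ≤ R * ‖y i - z i‖ + |ψ i - χ i| := by
      have := h.pos
      refine max_le ?_ (by positivity)
      rw [pot_eq hxi]; linarith [neg_abs_le (ψ i - χ i)]
    refine (pow_le_pow_left₀ (le_max_right _ _) h4 2).trans ?_
    rw [← sq_abs (ψ i - χ i)]
    nlinarith [sq_nonneg (R * ‖y i - z i‖ - |ψ i - χ i|)]
  simpa [hs i] using h1

theorem pot_stab {ρ : Measure (E d)} {R : ℝ} (h : Src ρ R) {y z : ι → E d}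
    (hyz : ∀ q : ℚ, Function.Injective (path y z q)) (hyR : ∀ i, ‖y i‖ ≤ R) (hzR : ∀ i, ‖z i‖ ≤ R)
    {m : ι → ℝ} (hm : ∀ i, 0 < m i) (hms : ∑ i, m i = 1) {ψ₀ χ : ι → ℝ}
    (s1 : Sol ρ y m ψ₀) (s3 : Sol ρ z m χ) {η : ℝ} (hη : 0 < η) :
    ∃ ψ, J ρ y m ψ ≤ J ρ y m ψ₀ + η ∧
      ∫ x, (pot y ψ x - pot z χ x) ^ 2 ∂ρ ≤ 120006 * R ^ 2 * ∑ i, m i * ‖y i - z i‖ ^ 2 := by
  have hR := h.pos
  have p0 : path y z ((0 : ℚ) : ℝ) = y := by funext i; simp [path]
  have p1 : path y z ((1 : ℚ) : ℝ) = z := by funext i; simp [path]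
  have hy : Function.Injective y := p0 ▸ hyz 0
  have hz : Function.Injective z := p1 ▸ hyz 1
  set V₀ := ∑ j, m j * (ψ₀ j - χ j) ^ 2 with hV₀
  have hV₀0 : 0 ≤ V₀ := Finset.sum_nonneg fun j _ => mul_nonneg (hm j).le (sq_nonneg _)
  set ε := min (1 / (8 * R ^ 2)) (η / (V₀ + 1)) with hεd
  have hε : 0 < ε := lt_min (by positivity) (by positivity)
  have hε1 : ε * (4 * R ^ 2) ≤ 1 / 2 := by
    have : ε ≤ 1 / (8 * R ^ 2) := min_le_left _ _
    rw [le_div_iff₀ (by positivity)] at this; linarith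
  have hε2 : ε / 2 * V₀ ≤ η := by
    have : ε ≤ η / (V₀ + 1) := min_le_right _ _
    rw [le_div_iff₀ (by positivity)] at this; nlinarith
  obtain ⟨ψ, s2, hmin⟩ := exists_reg h hy hm hms χ hε
  set m' : ι → ℝ := fun i => m i * (1 + ε * (ψ i - χ i)) with hm'
  have hms' : ∑ i, m' i = 1 := by
    rw [← lag_mass_sum h hy ψ]; exact Finset.sum_congr rfl fun i _ => (s2 i).symm
  have hmean : ∑ i, m i * (ψ i - χ i) = 0 := by
    have : ∑ i, m' i = ∑ i, m i + ε * ∑ i, m i * (ψ i - χ i) := by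
      rw [Finset.mul_sum, ← Finset.sum_add_distrib]
      exact Finset.sum_congr rfl fun i _ => by simp only [hm']; ring
    rw [hms', hms] at this
    have h3 : ε * ∑ i, m i * (ψ i - χ i) = 0 := by linarith
    exact (mul_eq_zero.1 h3).resolve_left hε.ne'
  obtain ⟨j, hj⟩ : ∃ j, 0 ≤ ψ j - χ j := by
    by_contra hc; push Not at hc
    have := Finset.sum_neg (s := Finset.univ) (f := fun i => m i * (ψ i - χ i))
      (fun i _ => mul_neg_of_pos_of_neg (hm i) (hc i)) Finset.univ_nonempty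
    linarith
  obtain ⟨k, hk⟩ : ∃ k, ψ k - χ k ≤ 0 := by
    by_contra hc; push Not at hc
    have := Finset.sum_pos (s := Finset.univ) (f := fun i => m i * (ψ i - χ i))
      (fun i _ => mul_pos (hm i) (hc i)) Finset.univ_nonempty
    linarith
  have oχ : ∀ i j, χ i - χ j ≤ 2 * R ^ 2 := fun i j =>
    osc_of_pos h hzR (by rw [s3 i]; exact hm i) j
  have low : ∀ i, -(4 * R ^ 2) ≤ ψ i - χ i := fun i => by
    have h1 := osc_of_pos h hyR (ψ := ψ) (i := j)
      (by rw [s2 j]; have := hm j; positivity) i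
    linarith [oχ i j]
  have h1 : ∀ i, m i ≤ 2 * m' i := fun i => by
    have := mul_le_mul_of_nonneg_left (low i) hε.le
    simp only [hm']; nlinarith [hm i]
  have up : ∀ i, ψ i - χ i ≤ 4 * R ^ 2 := fun i => by
    have h2 := osc_of_pos h hyR (ψ := ψ) (i := i)
      (by rw [s2 i]; linarith [hm i, h1 i]) k
    linarith [oχ k i]
  have h2 : ∀ i, m' i ≤ 2 * m i := fun i => by
    have := mul_le_mul_of_nonneg_left (up i) hε.le
    simp only [hm']; nlinarith [hm i]
  obtain ⟨χ', s4⟩ := exists_sol h hz (m := m') (fun i => by linarith [hm i, h1 i]) hms'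
  have mx := mixed h hyz hm hms hms' h1 h2 s1 s2 s3 s4
  set V := ∑ j, m j * (ψ j - χ j) ^ 2 with hV
  set W := ∑ i, m i * ‖y i - z i‖ ^ 2 with hW
  have hV0 : 0 ≤ V := Finset.sum_nonneg fun j _ => mul_nonneg (hm j).le (sq_nonneg _)
  have hW0 : 0 ≤ W := Finset.sum_nonneg fun j _ => mul_nonneg (hm j).le (sq_nonneg _)
  have e1 : ∑ i, (m i - m' i) ^ 2 / m i = ε ^ 2 * V := by
    rw [hV, Finset.mul_sum]
    refine Finset.sum_congr rfl fun i _ => ?_
    have := (hm i).ne'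
    simp only [hm']; field_simp; ring
  have lower : ε * V ≤ J ρ y m' ψ - J ρ z m' χ' - (J ρ y m ψ₀ - J ρ z m χ) := by
    have a1 := J_min h hy s1 ψ
    have a2 := J_min h hz s4 χ
    have e2 : ε * V = (∑ j, m' j * ψ j - ∑ j, m j * ψ j) - (∑ j, m' j * χ j - ∑ j, m j * χ j) := by
      rw [hV, Finset.mul_sum, ← Finset.sum_sub_distrib, ← Finset.sum_sub_distrib,
        ← Finset.sum_sub_distrib]
      exact Finset.sum_congr rfl fun i _ => by simp only [hm']; ring
    unfold J at a1 a2 ⊢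
    linarith
  rw [e1] at mx
  have hVW : V ≤ 20000 * R ^ 2 * W := by
    have h3 := lower.trans mx
    have h4 := pow_le_pow_left₀ (by positivity) h3 2
    rw [Real.sq_sqrt (by positivity)] at h4
    rcases hV0.eq_or_lt with h5 | h5
    · rw [← h5]; positivity
    · have : ε ^ 2 * V * V ≤ ε ^ 2 * V * (20000 * R ^ 2 * W) := by nlinarith
      exact le_of_mul_le_mul_left this (by positivity)
  refine ⟨ψ, ?_, ?_⟩
  · have := hmin ψ₀
    unfold J; linarith
  · have c1 := pot_cont y ψ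
    have c2 := pot_cont z χ
    have e : ∫ x, (pot y ψ x - pot z χ x) ^ 2 ∂ρ =
        ∫ x, (max (pot y ψ x - pot z χ x) 0) ^ 2 ∂ρ +
          ∫ x, (max (pot z χ x - pot y ψ x) 0) ^ 2 ∂ρ := by
      rw [← integral_add (h.integrable (by fun_prop)) (h.integrable (by fun_prop))]
      refine integral_congr_ae (Eventually.of_forall fun x => ?_)
      simp only
      rcases le_total (pot y ψ x) (pot z χ x) with hh | hh
      · rw [max_eq_right (by linarith), max_eq_left (by linarith)]; ring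
      · rw [max_eq_left (by linarith), max_eq_right (by linarith)]; ring
    have i1 := sq_int_le h (z := z) hy χ s2
    have i2 := sq_int_le h (z := y) hz ψ s3
    have b1 : ∑ i, m' i * (2 * R ^ 2 * ‖y i - z i‖ ^ 2 + 2 * (ψ i - χ i) ^ 2) ≤
        4 * R ^ 2 * W + 4 * V := by
      rw [hW, hV, Finset.mul_sum, Finset.mul_sum, ← Finset.sum_add_distrib]
      refine Finset.sum_le_sum fun i _ => ?_
      have := mul_le_mul_of_nonneg_right (h2 i)
        (show 0 ≤ 2 * R ^ 2 * ‖y i - z i‖ ^ 2 + 2 * (ψ i - χ i) ^ 2 by positivity)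
      linarith
    have b2 : ∑ i, m i * (2 * R ^ 2 * ‖z i - y i‖ ^ 2 + 2 * (χ i - ψ i) ^ 2) =
        2 * R ^ 2 * W + 2 * V := by
      rw [hW, hV, Finset.mul_sum, Finset.mul_sum, ← Finset.sum_add_distrib]
      refine Finset.sum_congr rfl fun i _ => ?_
      rw [norm_sub_rev]; ring
    rw [e]; linarith

end Crest.Agent.H0082
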