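import Crest.Agent.H0082.Interp

/-! From Monge optimality to approximate subgradients of semi-discrete potentials. -/

set_option autoImplicit false

namespace Crest.Agent.H0082

open MeasureTheory Set Filter Topology Crest.AnalysisR.OT ProbabilityTheory
open scoped ENNReal NNReal RealInnerProductSpace unitInterval

variable {d : ℕ}

lemma cdf_transform (l : Measure ℝ) [IsProbabilityMeasure l] (h0 : ∀ t, l {t} = 0) :
    ∃ U : ℝ → I, Measurable U ∧ l.map U = volume := by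
  have hc : Continuous (cdf l) := by
    refine continuous_iff_continuousAt.2 fun t => ?_
    rw [(monotone_cdf l).continuousAt_iff_leftLim_eq_rightLim, StieltjesFunction.rightLim_eq]
    have h1 := (cdf l).measure_singleton t
    rw [measure_cdf, h0, eq_comm, ENNReal.ofReal_eq_zero] at h1
    have h2 := (monotone_cdf l).leftLim_le (le_refl t)
    linarith
  set U : ℝ → I := fun t => ⟨cdf l t, cdf_nonneg l t, cdf_le_one l t⟩ with hU
  have hUm : Measurable U := Measurable.subtype_mk hc.measurable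
  refine ⟨U, hUm, Measure.ext_of_Iic _ _ fun s => ?_⟩
  rw [Measure.map_apply hUm measurableSet_Iic, unitInterval.volume_Iic]
  have e : U ⁻¹' Iic s = {t | cdf l t ≤ s} := by ext t; simp [hU, ← Subtype.coe_le_coe]
  rw [e]
  set S := {t | cdf l t ≤ (s : ℝ)} with hS
  rcases S.eq_empty_or_nonempty with hne | hne
  · have h1 : (s : ℝ) ≤ 0 := by
      refine ge_of_tendsto' (tendsto_cdf_atBot l) fun t => ?_
      by_contra hh
      have : t ∈ S := (not_le.1 hh).le
      simp [hne] at this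
    rw [hne, measure_empty, ENNReal.ofReal_of_nonpos h1]
  by_cases hb : BddAbove S
  · have hcl : IsClosed S := isClosed_le hc continuous_const
    have hmem := hcl.csSup_mem hne hb
    have e2 : S = Iic (sSup S) := by
      ext t
      exact ⟨fun ht => le_csSup hb ht, fun ht => le_trans (monotone_cdf l ht) hmem⟩
    have e3 : cdf l (sSup S) = s := by
      refine le_antisymm hmem ?_
      have ht : Tendsto (cdf l) (𝓝[>] (sSup S)) (𝓝 (cdf l (sSup S))) :=
        hc.continuousAt.tendsto.mono_left nhdsWithin_le_nhds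
      refine ge_of_tendsto ht ?_
      filter_upwards [self_mem_nhdsWithin] with t ht
      by_contra hh
      exact absurd (le_csSup hb (show t ∈ S from (not_le.1 hh).le)) (not_le.2 ht)
    rw [e2, ← ofReal_cdf, e3]
  · have e2 : S = univ := by
      refine eq_univ_of_forall fun t => ?_
      obtain ⟨u, hu, htu⟩ := not_bddAbove_iff.1 hb t
      exact le_trans (monotone_cdf l htu.le) hu
    have h1 : 1 ≤ (s : ℝ) := by
      refine le_of_tendsto' (tendsto_cdf_atTop l) fun t => ?_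
      have : t ∈ S := e2 ▸ mem_univ t
      exact this
    rw [e2, measure_univ, le_antisymm s.2.2 h1, ENNReal.ofReal_one]

lemma exists_map {ρ : Measure (E d)} {R : ℝ} (h : Src ρ R) (hd : 0 < d) (A : Set (E d))
    (hA : ρ A ≠ 0) (ν : Measure (E d)) (hν : ν univ = ρ A) :
    ∃ f : E d → E d, Measurable f ∧ (ρ.restrict A).map f = ν := by
  have := h.prob
  have hA' : ρ A ≠ ⊤ := measure_ne_top _ _
  set v : E d := EuclideanSpace.single ⟨0, hd⟩ 1 with hv
  have hv0 : v ≠ 0 := by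
    rw [← norm_ne_zero_iff, hv]; simp
  set τ : Measure (E d) := (ρ A)⁻¹ • ρ.restrict A with hτ
  have : IsProbabilityMeasure τ := ⟨by simp [hτ, ENNReal.inv_mul_cancel hA hA']⟩
  have : IsProbabilityMeasure ((ρ A)⁻¹ • ν) := ⟨by simp [hν, ENNReal.inv_mul_cancel hA hA']⟩
  have hX : Measurable fun x : E d => ⟪x, v⟫ := by fun_prop
  have : IsProbabilityMeasure (τ.map fun x : E d => ⟪x, v⟫) :=
    Measure.isProbabilityMeasure_map hX.aemeasurable
  obtain ⟨U, hU, hU'⟩ := cdf_transform (τ.map fun x : E d => ⟪x, v⟫) (by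
    intro t
    rw [Measure.map_apply hX (measurableSet_singleton t)]
    have h1 : ρ {x : E d | ⟪x, v⟫ = t} = 0 := h.ac (hyperplane_null hv0 t)
    have h2 : ρ.restrict A {x : E d | ⟪x, v⟫ = t} = 0 :=
      le_antisymm ((Measure.restrict_le_self _).trans h1.le) zero_le
    rw [hτ, Measure.smul_apply]
    exact mul_eq_zero_of_right _ h2)
  obtain ⟨f, hf, hf'⟩ := Measure.exists_measurable_map_eq ((ρ A)⁻¹ • ν)
  refine ⟨f ∘ U ∘ fun x => ⟪x, v⟫, hf.comp (hU.comp hX), ?_⟩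
  have e : ρ.restrict A = ρ A • τ := by
    rw [hτ, smul_smul, ENNReal.mul_inv_cancel hA hA', one_smul]
  rw [e, Measure.map_smul, ← Measure.map_map hf (hU.comp hX), ← Measure.map_map hU hX, hU', hf',
    smul_smul, ENNReal.mul_inv_cancel hA hA', one_smul]

lemma lint_sq_eq {α : Type*} [MeasurableSpace α] {ρ : Measure α} {f : α → E d}
    (hi : Integrable (fun x => ‖f x‖ ^ 2) ρ) :
    ∫⁻ x, ‖f x‖ₑ ^ 2 ∂ρ = ENNReal.ofReal (∫ x, ‖f x‖ ^ 2 ∂ρ) := by
  rw [ofReal_integral_eq_lintegral_ofReal hi (Eventually.of_forall fun x => sq_nonneg _)]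
  refine lintegral_congr fun x => ?_
  rw [ENNReal.ofReal_pow (norm_nonneg _), ofReal_norm]

lemma int_sq_of_bdd {α : Type*} [MeasurableSpace α] {ρ : Measure α} [IsFiniteMeasure ρ]
    {f g : α → E d} (hf : Measurable f) (hg : Measurable g) {R : ℝ} (h1 : ∀ᵐ x ∂ρ, ‖f x‖ ≤ R)
    (h2 : ∀ᵐ x ∂ρ, ‖g x‖ ≤ R) : Integrable (fun x => ‖f x - g x‖ ^ 2) ρ := by
  refine Integrable.of_bound (by fun_prop) ((2 * R) ^ 2) ?_
  filter_upwards [h1, h2] with x h1 h2
  rw [Real.norm_of_nonneg (sq_nonneg _)]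
  refine pow_le_pow_left₀ (norm_nonneg _) ?_ 2
  linarith [norm_sub_le (f x) (g x)]

lemma int_inner_of_bdd {α : Type*} [MeasurableSpace α] {ρ : Measure α} [IsFiniteMeasure ρ]
    {f g : α → E d} (hf : Measurable f) (hg : Measurable g) {R : ℝ} (h1 : ∀ᵐ x ∂ρ, ‖f x‖ ≤ R)
    (h2 : ∀ᵐ x ∂ρ, ‖g x‖ ≤ R) : Integrable (fun x => ⟪f x, g x⟫) ρ := by
  refine Integrable.of_bound (by fun_prop) (R * R) ?_
  filter_upwards [h1, h2] with x h1 h2
  exact (norm_inner_le_norm _ _).trans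
    (mul_le_mul h1 h2 (norm_nonneg _) ((norm_nonneg _).trans h1))

lemma ae_bdd_of_map {ρ μ : Measure (E d)} {T : E d → E d} (hT : Measurable T) (hm : ρ.map T = μ)
    {R : ℝ} (hμ : ∀ᵐ w ∂μ, ‖w‖ ≤ R) : ∀ᵐ x ∂ρ, ‖T x‖ ≤ R := by
  rw [← hm] at hμ
  exact ae_of_ae_map hT.aemeasurable hμ

lemma cost_expand {ρ μ : Measure (E d)} {R : ℝ} (h : Src ρ R) {T : E d → E d} (hT : Measurable T)
    (hm : ρ.map T = μ) (hμ : ∀ᵐ w ∂μ, ‖w‖ ≤ R) :
    ∫ x, ‖x - T x‖ ^ 2 ∂ρ = ∫ x, ‖x‖ ^ 2 ∂ρ - 2 * ∫ x, ⟪x, T x⟫ ∂ρ + ∫ w, ‖w‖ ^ 2 ∂μ := by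
  have := h.prob
  have hb := ae_bdd_of_map hT hm hμ
  have i1 : Integrable (fun x : E d => ‖x‖ ^ 2) ρ := h.integrable (by fun_prop)
  have i2 : Integrable (fun x => ⟪x, T x⟫) ρ := int_inner_of_bdd measurable_id hT h.ball hb
  have i3 : Integrable (fun x => ‖T x‖ ^ 2) ρ := by
    simpa using int_sq_of_bdd hT (measurable_const (a := 0)) hb
      (Eventually.of_forall fun _ => by simpa using h.pos.le)
  have i4 : Integrable (fun x : E d => ‖x‖ ^ 2 - 2 * ⟪x, T x⟫) ρ := i1.sub (i2.const_mul 2)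
  simp_rw [norm_sub_sq_real]
  rw [integral_add i4 i3, integral_sub i1 (i2.const_mul 2), integral_const_mul, ← hm,
    integral_map hT.aemeasurable (by fun_prop)]

lemma cost_le_iff {ρ μ : Measure (E d)} {R : ℝ} (h : Src ρ R) {T S : E d → E d}
    (hT : Measurable T) (hm : ρ.map T = μ) (hS : Measurable S) (hm' : ρ.map S = μ)
    (hμ : ∀ᵐ w ∂μ, ‖w‖ ≤ R) :
    ∫⁻ x, ‖x - T x‖ₑ ^ 2 ∂ρ ≤ ∫⁻ x, ‖x - S x‖ₑ ^ 2 ∂ρ ↔
      ∫ x, ⟪x, S x⟫ ∂ρ ≤ ∫ x, ⟪x, T x⟫ ∂ρ := by
  have := h.prob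
  rw [lint_sq_eq (int_sq_of_bdd measurable_id' hT h.ball (ae_bdd_of_map hT hm hμ)),
    lint_sq_eq (int_sq_of_bdd measurable_id' hS h.ball (ae_bdd_of_map hS hm' hμ)),
    ENNReal.ofReal_le_ofReal_iff (integral_nonneg fun x => sq_nonneg _),
    cost_expand h hT hm hμ, cost_expand h hS hm' hμ]
  constructor <;> intro hh <;> linarith

variable {ι : Type*} [Fintype ι] [Nonempty ι]

lemma restrict_lag_sum {ρ : Measure (E d)} {R : ℝ} (h : Src ρ R) {y : ι → E d}
    (hy : Function.Injective y) (ψ : ι → ℝ) : ∑ i, ρ.restrict (Lag y ψ i) = ρ := by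
  rw [← Measure.sum_fintype, ← Measure.restrict_iUnion_ae]
  · rw [iUnion_eq_univ_iff.2 (exists_lag y ψ), Measure.restrict_univ]
  · intro i j hij
    have := ae_distinct h hy ψ
    rw [ae_iff] at this
    refine measure_mono_null ?_ this
    rintro x ⟨h1, h2⟩ hx
    exact hx i j hij (le_antisymm (h2 i) (h1 j))
  · exact fun i => (lag_meas y ψ i).nullMeasurableSet

lemma monge_corr {ρ μ : Measure (E d)} {R : ℝ} (h : Src ρ R) (hd : 0 < d) {T : E d → E d}
    (hT : IsOptimalMap ρ μ T) (hμ : ∀ᵐ w ∂μ, ‖w‖ ≤ R) {y : ι → E d} (hy : Function.Injective y)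
    {m ψ : ι → ℝ} (hm : ∀ i, 0 < m i) (hs : Sol ρ y m ψ) {μi : ι → Measure (E d)}
    (hsum : ∑ i, μi i = μ) (hmass : ∀ i, μi i univ = ENNReal.ofReal (m i)) {δ : ℝ}
    (hδ : ∀ i, ∀ᵐ w ∂(μi i), ‖w - y i‖ ≤ δ) : J ρ y m ψ - R * δ ≤ ∫ x, ⟪x, T x⟫ ∂ρ := by
  have := h.prob
  have hA : ∀ i, ρ (Lag y ψ i) = ENNReal.ofReal (m i) := fun i => by
    rw [← hs i, ofReal_measureReal]
  choose f hf hf' using fun i => exists_map h hd (Lag y ψ i)
    (by rw [hA]; simpa using hm i) (μi i) (by rw [hA, hmass])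
  set S : E d → E d := fun x => ∑ i, (Lag y ψ i).indicator (f i) x with hS
  have hSm : Measurable S := Finset.measurable_sum _ fun i _ => (hf i).indicator (lag_meas y ψ i)
  have hSf : ∀ i, S =ᵐ[ρ.restrict (Lag y ψ i)] f i := fun i => by
    filter_upwards [ae_restrict_of_ae (ae_distinct h hy ψ), ae_restrict_mem (lag_meas y ψ i)]
      with x hx hi
    simp only [hS]
    rw [Finset.sum_eq_single i]
    · exact indicator_of_mem hi _
    · intro j _ hj
      have : x ∉ Lag y ψ j := fun hj' => hx j i hj (le_antisymm (hi j) (hj' i))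
      exact indicator_of_notMem this _
    · simp
  have hmap : ρ.map S = μ := by
    conv_lhs => rw [← restrict_lag_sum h hy ψ]
    rw [Measure.map_finset_sum' hSm.aemeasurable, ← hsum]
    refine Finset.sum_congr rfl fun i _ => ?_
    rw [Measure.map_congr (hSf i), hf']
  refine le_trans ?_ ((cost_le_iff h hT.1 hT.2.1 hSm hmap hμ).1 (hT.2.2 S hSm hmap))
  have iS : Integrable (fun x => ⟪x, S x⟫) ρ :=
    int_inner_of_bdd measurable_id hSm h.ball (ae_bdd_of_map hSm hmap hμ)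
  rw [← lag_sum h hy ψ iS, strong_dual h hy hs]
  have e : R * δ = ∑ i, m i * (R * δ) := by
    rw [← Finset.sum_mul]
    have := lag_mass_sum h hy ψ
    simp only [hs _] at this
    rw [this, one_mul]
  rw [e, ← Finset.sum_sub_distrib]
  refine Finset.sum_le_sum fun i _ => ?_
  have e2 := int_aff h (Lag y ψ i) (y i) (R * δ)
  rw [hs i] at e2
  unfold Mom
  rw [← e2]
  refine integral_mono_ae (h.integrable (by fun_prop)).integrableOn iS.integrableOn ?_
  have h1 : ∀ᵐ x ∂(ρ.restrict (Lag y ψ i)), ‖f i x - y i‖ ≤ δ := by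
    have := hδ i
    rw [← hf'] at this
    exact ae_of_ae_map (hf i).aemeasurable this
  filter_upwards [hSf i, h1, ae_restrict_of_ae h.ball] with x h2 h3 h4
  rw [h2]
  have h5 := abs_le.1 (abs_real_inner_le_norm x (f i x - y i))
  have h6 : ‖x‖ * ‖f i x - y i‖ ≤ R * δ := mul_le_mul h4 h3 (norm_nonneg _) h.pos.le
  rw [inner_sub_right] at h5
  linarith

/-- Lipschitz extension of the weights. -/
noncomputable def psih (R : ℝ) (y : ι → E d) (ψ : ι → ℝ) (w : E d) : ℝ :=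
  Finset.univ.inf' Finset.univ_nonempty fun i => ψ i + R * ‖w - y i‖

lemma psih_cont (R : ℝ) (y : ι → E d) (ψ : ι → ℝ) : Continuous (psih R y ψ) :=
  Continuous.finset_inf'_apply Finset.univ_nonempty fun i _ => by fun_prop

lemma psih_le (R : ℝ) (y : ι → E d) (ψ : ι → ℝ) (w : E d) (i : ι) :
    psih R y ψ w ≤ ψ i + R * ‖w - y i‖ :=
  Finset.inf'_le (fun i => ψ i + R * ‖w - y i‖) (Finset.mem_univ i)

lemma fenchel {R : ℝ} (y : ι → E d) (ψ : ι → ℝ) (w : E d) {x : E d} (hx : ‖x‖ ≤ R) :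
    ⟪x, w⟫ ≤ pot y ψ x + psih R y ψ w := by
  rw [← sub_le_iff_le_add']
  refine Finset.le_inf' _ _ fun i _ => ?_
  have h1 := le_pot y ψ x i
  have h2 : ⟪x, w - y i⟫ ≤ R * ‖w - y i‖ := (real_inner_le_norm _ _).trans (by gcongr)
  rw [inner_sub_right] at h2
  linarith

/-- The optimal map is an approximate subgradient of a near-optimal semi-discrete potential. -/
theorem gap {ρ μ : Measure (E d)} {R : ℝ} (h : Src ρ R) (hd : 0 < d) {T : E d → E d}
    (hT : IsOptimalMap ρ μ T) (hμ : ∀ᵐ w ∂μ, ‖w‖ ≤ R) {y : ι → E d} (hy : Function.Injective y)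
    {m ψ₀ : ι → ℝ} (hm : ∀ i, 0 < m i) (hs : Sol ρ y m ψ₀) {μi : ι → Measure (E d)}
    (hsum : ∑ i, μi i = μ) (hmass : ∀ i, μi i univ = ENNReal.ofReal (m i)) {δ : ℝ}
    (hδ : ∀ i, ∀ᵐ w ∂(μi i), ‖w - y i‖ ≤ δ) (ψ : ι → ℝ) :
    ∃ η : E d → ℝ, Integrable η ρ ∧ (∀ᵐ x ∂ρ, 0 ≤ η x) ∧
      (∀ x x', ‖x'‖ ≤ R → pot y ψ x + ⟪x' - x, T x⟫ - η x ≤ pot y ψ x') ∧
      ∫ x, η x ∂ρ ≤ J ρ y m ψ - J ρ y m ψ₀ + 2 * R * δ := by
  have := h.prob
  have hb := ae_bdd_of_map hT.1 hT.2.1 hμ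
  have : IsProbabilityMeasure μ := hT.2.1 ▸ Measure.isProbabilityMeasure_map hT.1.aemeasurable
  have iμ : Integrable (psih R y ψ) μ := by
    obtain ⟨M, hM⟩ := (isCompact_closedBall (0 : E d) R).exists_bound_of_continuousOn
      (psih_cont R y ψ).continuousOn
    refine Integrable.of_bound (psih_cont R y ψ).aestronglyMeasurable M ?_
    filter_upwards [hμ] with x hx
    exact hM x (by simpa using hx)
  have i1 : Integrable (pot y ψ) ρ := h.integrable (pot_cont y ψ)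
  have i2 : Integrable (fun x => psih R y ψ (T x)) ρ := by
    rw [← hT.2.1] at iμ
    exact iμ.comp_measurable hT.1
  have i3 : Integrable (fun x => ⟪x, T x⟫) ρ := int_inner_of_bdd measurable_id hT.1 h.ball hb
  have i4 : Integrable (fun x => pot y ψ x + psih R y ψ (T x)) ρ := i1.add i2
  refine ⟨fun x => pot y ψ x + psih R y ψ (T x) - ⟪x, T x⟫, i4.sub i3, ?_, ?_, ?_⟩
  · filter_upwards [h.ball] with x hx
    linarith [fenchel y ψ (T x) hx]
  · intro x x' hx'
    have := fenchel y ψ (T x) hx'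
    rw [inner_sub_left]; linarith
  · rw [integral_sub i4 i3, integral_add i1 i2]
    have h1 := monge_corr h hd hT hμ hy hm hs hsum hmass hδ
    have h2 : ∫ x, psih R y ψ (T x) ∂ρ = ∫ w, psih R y ψ w ∂μ := by
      rw [← hT.2.1, integral_map hT.1.aemeasurable (psih_cont R y ψ).aestronglyMeasurable]
    have hle : ∀ i, μi i ≤ μ := fun i => by
      rw [← hsum]
      exact Finset.single_le_sum (f := μi) (fun _ _ => bot_le) (Finset.mem_univ i)
    have h3 : ∫ w, psih R y ψ w ∂μ ≤ ∑ i, m i * (ψ i + R * δ) := by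
      conv_lhs => rw [← hsum]
      rw [integral_finsetSum_measure fun i _ => iμ.mono_measure (hle i)]
      refine Finset.sum_le_sum fun i _ => ?_
      have : IsFiniteMeasure (μi i) := isFiniteMeasure_of_le μ (hle i)
      have h4 : ∫ w, psih R y ψ w ∂(μi i) ≤ ∫ _, (ψ i + R * δ) ∂(μi i) := by
        refine integral_mono_ae (iμ.mono_measure (hle i)) (integrable_const _) ?_
        filter_upwards [hδ i] with w hw
        have := h.pos
        exact (psih_le R y ψ w i).trans (by gcongr)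
      rw [integral_const, Measure.real, hmass, ENNReal.toReal_ofReal (hm i).le] at h4
      exact h4
    have h5 : ∑ i, m i = 1 := by
      have := lag_mass_sum h hy ψ₀
      simpa only [hs _] using this
    simp only [mul_add, Finset.sum_add_distrib, ← Finset.sum_mul, h5] at h3
    unfold J at h1 ⊢
    unfold Phi at h1 ⊢
    linarith

end Crest.Agent.H0082
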