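import Mathlib

/-! Prékopa–Leindler inequality (midpoint form) in Euclidean space. -/

set_option autoImplicit false

namespace Crest.Agent.H0082

open MeasureTheory Set
open scoped ENNReal NNReal

/-- The midpoint Prékopa–Leindler property. -/
def PL {α : Type*} [MeasurableSpace α] (μ : Measure α) (mid : α → α → α) : Prop :=
  ∀ f g h : α → ℝ≥0∞, Measurable f → Measurable g → Measurable h →
    (∀ x y, f x * g y ≤ h (mid x y) ^ 2) → (∫⁻ x, f x ∂μ) * (∫⁻ x, g x ∂μ) ≤ (∫⁻ x, h x ∂μ) ^ 2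

lemma vol_half_preimage (A : Set ℝ) (b : ℝ) :
    2 * volume ((fun z : ℝ => 2 * z - b) ⁻¹' A) = volume A := by
  have h1 : ((fun z : ℝ => 2 * z - b) ⁻¹' A) = (fun z : ℝ => 2 * z) ⁻¹' ((fun w => w + (-b)) ⁻¹' A) := by
    ext z; simp [sub_eq_add_neg]
  rw [h1, Real.volume_preimage_mul_left (by norm_num : (2:ℝ) ≠ 0), measure_preimage_add_right,
    ← mul_assoc]
  have : (2 : ℝ≥0∞) * ENNReal.ofReal |(2:ℝ)⁻¹| = 1 := by
    rw [abs_of_pos (by norm_num), ENNReal.ofReal_inv_of_pos (by norm_num)]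
    simp [ENNReal.mul_inv_cancel]
  rw [this, one_mul]

lemma bm_aux {A B C : Set ℝ} (hB : MeasurableSet B)
    (hC : ∀ x ∈ A, ∀ y ∈ B, (x + y) / 2 ∈ C) {a b : ℝ} (ha : a ∈ A) (hb : b ∈ B) :
    volume (A ∩ Iic a) + volume (B ∩ Ici b) ≤ 2 * volume C := by
  rw [← vol_half_preimage (A ∩ Iic a) b, ← vol_half_preimage (B ∩ Ici b) a, ← mul_add]
  gcongr
  rw [← measure_union₀]
  · apply measure_mono
    rintro z (hz | hz)
    · have := hC _ hz.1 _ hb
      simpa using this
    · have := hC _ ha _ hz.1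
      simpa using this
  · exact ((hB.inter measurableSet_Ici).preimage (by fun_prop)).nullMeasurableSet
  · refine measure_mono_null (t := {(a + b) / 2}) ?_ (by simp)
    rintro z ⟨h1, h2⟩
    have e1 : 2 * z - b ≤ a := h1.2
    have e2 : b ≤ 2 * z - a := h2.2
    simp only [mem_singleton_iff]
    linarith

lemma vol_le_iSup_Iic {A : Set ℝ} (hA : MeasurableSet A) :
    volume A ≤ ⨆ a : A, volume (A ∩ Iic (a : ℝ)) := by
  refine le_of_forall_lt fun r hr => ?_
  obtain ⟨K, hKA, hK, hr⟩ := hA.exists_lt_isCompact hr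
  have hne : K.Nonempty := by
    by_contra h
    rw [not_nonempty_iff_eq_empty] at h
    simp [h] at hr
  obtain ⟨a, haK, ha⟩ := hK.exists_isGreatest hne
  refine hr.trans_le (le_trans ?_ (le_iSup _ ⟨a, hKA haK⟩))
  exact measure_mono fun x hx => ⟨hKA hx, ha hx⟩

lemma vol_le_iSup_Ici {A : Set ℝ} (hA : MeasurableSet A) :
    volume A ≤ ⨆ a : A, volume (A ∩ Ici (a : ℝ)) := by
  refine le_of_forall_lt fun r hr => ?_
  obtain ⟨K, hKA, hK, hr⟩ := hA.exists_lt_isCompact hr
  have hne : K.Nonempty := by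
    by_contra h
    rw [not_nonempty_iff_eq_empty] at h
    simp [h] at hr
  obtain ⟨a, haK, ha⟩ := hK.exists_isLeast hne
  refine hr.trans_le (le_trans ?_ (le_iSup _ ⟨a, hKA haK⟩))
  exact measure_mono fun x hx => ⟨hKA hx, ha hx⟩

/-- One-dimensional Brunn–Minkowski. -/
lemma bm1 {A B C : Set ℝ} (hA : MeasurableSet A) (hB : MeasurableSet B)
    (hAn : A.Nonempty) (hBn : B.Nonempty)
    (hC : ∀ x ∈ A, ∀ y ∈ B, (x + y) / 2 ∈ C) : volume A + volume B ≤ 2 * volume C := by
  have : Nonempty A := hAn.to_subtype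
  have : Nonempty B := hBn.to_subtype
  refine (add_le_add (vol_le_iSup_Iic hA) (vol_le_iSup_Ici hB)).trans ?_
  refine ENNReal.iSup_add_iSup_le fun a b => bm_aux hB hC a.2 b.2

lemma layer (f : ℝ → ℝ≥0∞) (hf : Measurable f) :
    ∫⁻ x, f x = ∫⁻ t in Ioi (0:ℝ), volume {x | ENNReal.ofReal t < f x} := by
  have hm : MeasurableSet {p : ℝ × ℝ | ENNReal.ofReal p.2 < f p.1} :=
    measurableSet_lt (by fun_prop) (by fun_prop)
  have h1 : ∀ a : ℝ≥0∞, a = (volume.restrict (Ioi (0:ℝ))) {t | ENNReal.ofReal t < a} := by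
    intro a
    rw [Measure.restrict_apply (measurableSet_lt (by fun_prop) (by fun_prop))]
    by_cases ha : a = ⊤
    · subst ha; simp
    · have : {t : ℝ | ENNReal.ofReal t < a} ∩ Ioi 0 = Ioo 0 a.toReal := by
        ext t
        simp only [mem_inter_iff, mem_ofPred_eq, mem_Ioi, mem_Ioo]
        constructor
        · rintro ⟨h1, h2⟩
          exact ⟨h2, (ENNReal.ofReal_lt_iff_lt_toReal h2.le ha).1 h1⟩
        · rintro ⟨h1, h2⟩
          exact ⟨(ENNReal.ofReal_lt_iff_lt_toReal h1.le ha).2 h2, h1⟩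
      rw [this, Real.volume_Ioo, sub_zero, ENNReal.ofReal_toReal ha]
  have h2 := Measure.prod_apply (μ := (volume : Measure ℝ)) (ν := volume.restrict (Ioi (0:ℝ))) hm
  have h3 := Measure.prod_apply_symm (μ := (volume : Measure ℝ))
    (ν := volume.restrict (Ioi (0:ℝ))) hm
  rw [h2] at h3
  calc ∫⁻ x, f x = ∫⁻ x, (volume.restrict (Ioi (0:ℝ))) {t | ENNReal.ofReal t < f x} :=
        lintegral_congr fun x => h1 _
    _ = _ := h3

lemma amgm (a b : ℝ≥0∞) : 4 * (a * b) ≤ (a + b) ^ 2 := by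
  by_cases ha : a = ⊤
  · subst ha; simp
  by_cases hb : b = ⊤
  · subst hb; simp
  lift a to ℝ≥0 using ha
  lift b to ℝ≥0 using hb
  have : (4 * (a * b) : ℝ≥0) ≤ (a + b) ^ 2 := by
    rw [← NNReal.coe_le_coe]; push_cast; nlinarith [sq_nonneg ((a:ℝ) - b)]
  exact_mod_cast this

/-- normalised one-dimensional case -/
lemma pl1_norm (f g h : ℝ → ℝ≥0∞) (hf : Measurable f) (hg : Measurable g) (hh : Measurable h)
    (hf1 : ⨆ x, f x = 1) (hg1 : ⨆ x, g x = 1)
    (H : ∀ x y, f x * g y ≤ h ((x + y) / 2) ^ 2) :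
    (∫⁻ x, f x) * (∫⁻ x, g x) ≤ (∫⁻ x, h x) ^ 2 := by
  have key : (∫⁻ x, f x) + (∫⁻ x, g x) ≤ 2 * ∫⁻ x, h x := by
    rw [layer f hf, layer g hg, layer h hh, ← lintegral_const_mul' _ _ (by simp),
      ← lintegral_add_left]
    · refine lintegral_mono fun t => ?_
      by_cases ht : ENNReal.ofReal t < 1
      · refine bm1 (measurableSet_lt (by fun_prop) hf) (measurableSet_lt (by fun_prop) hg) ?_ ?_ ?_
        · rw [← hf1, lt_iSup_iff] at ht; exact ht
        · rw [← hg1, lt_iSup_iff] at ht; exact ht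
        · intro x hx y hy
          simp only [mem_ofPred_eq] at hx hy ⊢
          have h1 : ENNReal.ofReal t ^ 2 < h ((x + y) / 2) ^ 2 := by
            refine lt_of_lt_of_le ?_ (H x y)
            rw [sq]
            exact ENNReal.mul_lt_mul hx hy
          by_contra hc
          push Not at hc
          exact absurd (pow_le_pow_left' hc 2) (not_le.2 h1)
      · push Not at ht
        have e1 : {x | ENNReal.ofReal t < f x} = ∅ := by
          ext x; simp only [mem_ofPred_eq, mem_empty_iff_false, iff_false, not_lt]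
          exact le_trans (hf1 ▸ le_iSup f x) ht
        have e2 : {x | ENNReal.ofReal t < g x} = ∅ := by
          ext x; simp only [mem_ofPred_eq, mem_empty_iff_false, iff_false, not_lt]
          exact le_trans (hg1 ▸ le_iSup g x) ht
        simp [e1, e2]
    · refine Antitone.measurable fun s t hst => measure_mono fun x hx => ?_
      exact lt_of_le_of_lt (ENNReal.ofReal_le_ofReal hst) hx
  have h2 := (amgm _ _).trans (pow_le_pow_left' key 2)
  rw [mul_pow] at h2
  have h4 : (2 : ℝ≥0∞) ^ 2 = 4 := by norm_num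
  rw [h4] at h2
  exact (ENNReal.mul_le_mul_iff_right (by norm_num) (by norm_num)).1 h2

lemma pl1_bdd (f g h : ℝ → ℝ≥0∞) (hf : Measurable f) (hg : Measurable g) (hh : Measurable h)
    (hf1 : ⨆ x, f x ≠ ⊤) (hg1 : ⨆ x, g x ≠ ⊤)
    (H : ∀ x y, f x * g y ≤ h ((x + y) / 2) ^ 2) :
    (∫⁻ x, f x) * (∫⁻ x, g x) ≤ (∫⁻ x, h x) ^ 2 := by
  set F := ⨆ x, f x with hF
  set G := ⨆ x, g x with hG
  by_cases hF0 : F = 0
  · have : f = 0 := by
      funext x; exact le_antisymm ((le_iSup f x).trans hF0.le) zero_le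
    simp [this]
  by_cases hG0 : G = 0
  · have : g = 0 := by
      funext x; exact le_antisymm ((le_iSup g x).trans hG0.le) zero_le
    simp [this]
  set c : ℝ≥0∞ := (F⁻¹ * G⁻¹) ^ (1 / 2 : ℝ) with hc
  have hc2 : c ^ 2 = F⁻¹ * G⁻¹ := by
    rw [hc, ← ENNReal.rpow_natCast, ← ENNReal.rpow_mul]; norm_num
  have hFi : F⁻¹ ≠ ⊤ := ENNReal.inv_ne_top.2 hF0
  have hGi : G⁻¹ ≠ ⊤ := ENNReal.inv_ne_top.2 hG0
  have hFi0 : F⁻¹ ≠ 0 := ENNReal.inv_ne_zero.2 hf1
  have hGi0 : G⁻¹ ≠ 0 := ENNReal.inv_ne_zero.2 hg1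
  have := pl1_norm (fun x => F⁻¹ * f x) (fun x => G⁻¹ * g x) (fun x => c * h x)
    (by fun_prop) (by fun_prop) (by fun_prop)
    (by rw [← ENNReal.mul_iSup, ← hF, ENNReal.inv_mul_cancel hF0 hf1])
    (by rw [← ENNReal.mul_iSup, ← hG, ENNReal.inv_mul_cancel hG0 hg1])
    (fun x y => by
      rw [mul_pow, hc2, mul_mul_mul_comm]
      gcongr
      exact H x y)
  rw [lintegral_const_mul _ hf, lintegral_const_mul _ hg, lintegral_const_mul _ hh, mul_pow, hc2,
    mul_mul_mul_comm] at this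
  exact (ENNReal.mul_le_mul_iff_right (mul_ne_zero hFi0 hGi0) (ENNReal.mul_ne_top hFi hGi)).1 this

lemma lint_trunc (f : ℝ → ℝ≥0∞) (hf : Measurable f) :
    ∫⁻ x, f x = ⨆ n : ℕ, ∫⁻ x, min (f x) n := by
  rw [← lintegral_iSup (fun n => by fun_prop)]
  · refine lintegral_congr fun x => ?_
    have := inf_iSup_eq (a := f x) (f := fun n : ℕ => (n : ℝ≥0∞))
    rw [ENNReal.iSup_natCast, inf_top_eq] at this
    exact this
  · intro m n hmn x
    exact min_le_min le_rfl (by exact_mod_cast hmn)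

theorem pl_real : PL (volume : Measure ℝ) (fun x y => (x + y) / 2) := by
  intro f g h hf hg hh H
  rw [lint_trunc f hf, lint_trunc g hg, ENNReal.iSup_mul]
  refine iSup_le fun m => ?_
  rw [ENNReal.mul_iSup]
  refine iSup_le fun n => ?_
  refine pl1_bdd _ _ h (by fun_prop) (by fun_prop) hh ?_ ?_ fun x y => ?_
  · exact ne_top_of_le_ne_top (ENNReal.natCast_ne_top m) (iSup_le fun x => min_le_right _ _)
  · exact ne_top_of_le_ne_top (ENNReal.natCast_ne_top n) (iSup_le fun x => min_le_right _ _)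
  · exact le_trans (mul_le_mul' (min_le_left _ _) (min_le_left _ _)) (H x y)

theorem PL.prod {α β : Type*} [MeasurableSpace α] [MeasurableSpace β] {μ : Measure α}
    {ν : Measure β} [SFinite ν] {m : α → α → α} {m' : β → β → β} (h1 : PL μ m) (h2 : PL ν m') :
    PL (μ.prod ν) (fun p q => (m p.1 q.1, m' p.2 q.2)) := by
  intro f g h hf hg hh H
  rw [lintegral_prod _ hf.aemeasurable, lintegral_prod _ hg.aemeasurable,
    lintegral_prod _ hh.aemeasurable]
  refine h1 _ _ _ hf.lintegral_prod_right' hg.lintegral_prod_right' hh.lintegral_prod_right'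
    fun x y => ?_
  exact h2 _ _ _ (by fun_prop) (by fun_prop) (by fun_prop) fun u v => H (x, u) (y, v)

theorem PL.transfer {α β : Type*} [MeasurableSpace α] [MeasurableSpace β] {μ : Measure α}
    {ν : Measure β} {m : α → α → α} {m' : β → β → β} (h1 : PL μ m) {e : α → β}
    (he : MeasurePreserving e μ ν) (hm : ∀ x y, e (m x y) = m' (e x) (e y)) : PL ν m' := by
  intro f g h hf hg hh H
  rw [← he.lintegral_comp hf, ← he.lintegral_comp hg, ← he.lintegral_comp hh]
  refine h1 _ _ _ (hf.comp he.measurable) (hg.comp he.measurable) (hh.comp he.measurable)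
    fun x y => ?_
  rw [hm]; exact H _ _

theorem pl_pi (n : ℕ) : PL (volume : Measure (Fin n → ℝ)) (fun x y => (1 / 2 : ℝ) • (x + y)) := by
  induction n with
  | zero =>
    intro f g h hf hg hh H
    rw [Measure.volume_pi_eq_dirac 0]
    simp only [lintegral_dirac]
    simpa using H 0 0
  | succ n ih =>
    refine (pl_real.prod ih).transfer
      (volume_preserving_piFinSuccAbove (fun _ : Fin (n + 1) => ℝ) 0).symm fun x y => ?_
    funext i
    refine Fin.cases ?_ (fun j => ?_) i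
    · simp [MeasurableEquiv.piFinSuccAbove]; ring
    · simp [MeasurableEquiv.piFinSuccAbove]; ring

theorem pl_euclid (n : ℕ) :
    PL (volume : Measure (EuclideanSpace ℝ (Fin n))) (fun x y => (1 / 2 : ℝ) • (x + y)) :=
  (pl_pi n).transfer (PiLp.volume_preserving_toLp (Fin n)) fun x y => by simp

end Crest.Agent.H0082
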