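import Crest.Agent.H0082.Disc

/-! Semi-discrete optimal maps and the sharpness example. -/

set_option autoImplicit false

namespace Crest.Agent.H0082

open MeasureTheory Set Filter Topology Crest.AnalysisR.OT ProbabilityTheory
open scoped ENNReal NNReal RealInnerProductSpace

variable {d : ℕ} {ι : Type*} [Fintype ι] [Nonempty ι]

/-- The semi-discrete transport map. -/
noncomputable def Smap (y : ι → E d) (ψ : ι → ℝ) (x : E d) : E d :=
  ∑ i, (Lag y ψ i).indicator (fun _ => y i) x

omit [Nonempty ι] in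
lemma Smap_meas (y : ι → E d) (ψ : ι → ℝ) : Measurable (Smap y ψ) :=
  Finset.measurable_sum _ fun i _ => measurable_const.indicator (lag_meas y ψ i)

omit [Nonempty ι] in
lemma Smap_ae {ρ : Measure (E d)} {R : ℝ} (h : Src ρ R) {y : ι → E d}
    (hy : Function.Injective y) (ψ : ι → ℝ) :
    ∀ᵐ x ∂ρ, ∀ i, x ∈ Lag y ψ i → Smap y ψ x = y i := by
  filter_upwards [ae_distinct h hy ψ] with x hx i hi
  unfold Smap
  rw [Finset.sum_eq_single i]
  · exact indicator_of_mem hi _
  · intro j _ hj
    have : x ∉ Lag y ψ j := fun hj' => hx j i hj (le_antisymm (hi j) (hj' i))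
    exact indicator_of_notMem this _
  · simp

omit [Nonempty ι] in
lemma ae_atoms {α : Type*} [MeasurableSpace α] [MeasurableSingletonClass α] (y : ι → α)
    (m : ι → ℝ≥0∞) {p : α → Prop} (hp : ∀ i, p (y i)) :
    ∀ᵐ w ∂(∑ i, m i • Measure.dirac (y i)), p w := by
  rw [ae_finsetSum_measure_iff]
  intro i _
  refine Measure.ae_smul_measure ?_ _
  rw [ae_dirac_eq]; exact hp i

lemma Smap_opt {ρ : Measure (E d)} {R : ℝ} (h : Src ρ R) {y : ι → E d}
    (hy : Function.Injective y) (hyR : ∀ i, ‖y i‖ ≤ R) {m ψ : ι → ℝ} (hs : Sol ρ y m ψ) :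
    IsOptimalMap ρ (∑ i, ENNReal.ofReal (m i) • Measure.dirac (y i)) (Smap y ψ) := by
  have := h.prob
  have hm0 : ∀ i, 0 ≤ m i := fun i => by rw [← hs i]; exact measureReal_nonneg
  have hSf : ∀ i, Smap y ψ =ᵐ[ρ.restrict (Lag y ψ i)] fun _ => y i := fun i => by
    filter_upwards [ae_restrict_of_ae (Smap_ae h hy ψ), ae_restrict_mem (lag_meas y ψ i)]
      with x hx hi using hx i hi
  have hmap : ρ.map (Smap y ψ) = ∑ i, ENNReal.ofReal (m i) • Measure.dirac (y i) := by
    conv_lhs => rw [← restrict_lag_sum h hy ψ]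
    rw [Measure.map_finset_sum' (Smap_meas y ψ).aemeasurable]
    refine Finset.sum_congr rfl fun i _ => ?_
    rw [Measure.map_congr (hSf i), Measure.map_const, ← hs i, ofReal_measureReal]
    simp
  have hμ := ae_atoms y (fun i => ENNReal.ofReal (m i)) (p := fun w => ‖w‖ ≤ R) hyR
  refine ⟨Smap_meas y ψ, hmap, fun S hS hS' => ?_⟩
  rw [cost_le_iff h (Smap_meas y ψ) hmap hS hS' hμ]
  have iT : Integrable (fun x => ⟪x, Smap y ψ x⟫) ρ :=
    int_inner_of_bdd measurable_id (Smap_meas y ψ) h.ball (ae_bdd_of_map (Smap_meas y ψ) hmap hμ)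
  have iS : Integrable (fun x => ⟪x, S x⟫) ρ :=
    int_inner_of_bdd measurable_id hS h.ball (ae_bdd_of_map hS hS' hμ)
  have e1 : ∫ x, ⟪x, Smap y ψ x⟫ ∂ρ = J ρ y m ψ := by
    rw [← lag_sum h hy ψ iT, strong_dual h hy hs]
    refine Finset.sum_congr rfl fun i _ => ?_
    have := int_aff h (Lag y ψ i) (y i) 0
    simp only [sub_zero, mul_zero] at this
    unfold Mom
    rw [← this]
    refine integral_congr_ae ?_
    filter_upwards [hSf i] with x hx
    rw [hx]
  have ii : ∀ i ∈ (Finset.univ : Finset ι),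
      Integrable (psih R y ψ) (ENNReal.ofReal (m i) • Measure.dirac (y i)) := fun i _ =>
    (integrable_dirac (by simp)).smul_measure ENNReal.ofReal_ne_top
  have iμ : Integrable (psih R y ψ) (∑ i, ENNReal.ofReal (m i) • Measure.dirac (y i)) :=
    integrable_finsetSum_measure.2 ii
  have i2 : Integrable (fun x => psih R y ψ (S x)) ρ := by
    rw [← hS'] at iμ
    exact iμ.comp_measurable hS
  have e2 : ∫ x, psih R y ψ (S x) ∂ρ ≤ ∑ i, m i * ψ i := by
    rw [← integral_map hS.aemeasurable (psih_cont R y ψ).aestronglyMeasurable, hS',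
      integral_finsetSum_measure ii]
    refine Finset.sum_le_sum fun i _ => ?_
    rw [integral_smul_measure, integral_dirac, ENNReal.toReal_ofReal (hm0 i), smul_eq_mul]
    have := psih_le R y ψ (y i) i
    simp only [sub_self, norm_zero, mul_zero, add_zero] at this
    exact mul_le_mul_of_nonneg_left this (hm0 i)
  have e3 : ∫ x, ⟪x, S x⟫ ∂ρ ≤ ∫ x, (pot y ψ x + psih R y ψ (S x)) ∂ρ := by
    refine integral_mono_ae iS ((h.integrable (pot_cont y ψ)).add i2) ?_
    filter_upwards [h.ball] with x hx using fenchel y ψ (S x) hx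
  rw [integral_add (h.integrable (pot_cont y ψ)) i2] at e3
  rw [e1]; unfold J Phi; linarith

lemma opt_unique {ρ μ : Measure (E d)} {R : ℝ} (h : Src ρ R) (hd : 0 < d) {K : Set (E d)}
    {c : ℝ} (hK : Shrink ρ K c) (hKR : ∀ x ∈ K, ‖x‖ ≤ R) {Y : Set (E d)} (hY : IsCompact Y)
    (hYR : ∀ w ∈ Y, ‖w‖ + 1 ≤ R) (hμ : ∀ᵐ w ∂μ, w ∈ Y) {T S : E d → E d}
    (hT : IsOptimalMap ρ μ T) (hS : IsOptimalMap ρ μ S) : T =ᵐ[ρ] S := by
  have := h.prob
  have hm : Measurable fun w : E d => (w, w) := by fun_prop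
  have key := stab h hd hK hKR hY hYR hμ hμ hT hS (π := μ.map fun w => (w, w))
    ⟨by rw [Measure.map_map measurable_fst hm]; exact Measure.map_id,
     by rw [Measure.map_map measurable_snd hm]; exact Measure.map_id⟩
  rw [integral_map hm.aemeasurable (by fun_prop)] at key
  simp only [sub_self, norm_zero, ne_eq, OfNat.ofNat_ne_zero, not_false_eq_true, zero_pow,
    integral_zero] at key
  rw [Real.zero_rpow (by norm_num), mul_zero] at key
  have hμR : ∀ᵐ w ∂μ, ‖w‖ ≤ R := hμ.mono fun w hw => by linarith [hYR w hw]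
  have h0 := (integral_eq_zero_iff_of_nonneg (fun x => sq_nonneg ‖T x - S x‖)
    (int_sq_of_bdd hT.1 hS.1 (ae_bdd_of_map hT.1 hT.2.1 hμR) (ae_bdd_of_map hS.1 hS.2.1 hμR))).1
    (le_antisymm key (integral_nonneg fun x => sq_nonneg _))
  filter_upwards [h0] with x hx
  simpa [sub_eq_zero] using hx

/-- The cube. -/
def cube (d : ℕ) : Set (E d) := {x | ∀ i, |x i| ≤ 1}

lemma vol_box (a b : Fin d → ℝ) :
    volume {x : E d | ∀ i, x i ∈ Icc (a i) (b i)} = ∏ i, ENNReal.ofReal (b i - a i) := by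
  rw [← Real.volume_Icc_pi, ← (PiLp.volume_preserving_ofLp (Fin d)).measure_preimage
    measurableSet_Icc.nullMeasurableSet]
  congr 1
  ext x
  simp [Pi.le_def, forall_and]

lemma cube_eq : cube d = {x : E d | ∀ i, x i ∈ Icc (-1 : ℝ) 1} := by
  ext x; simp [cube, abs_le]

lemma cube_norm {x : E d} (hx : x ∈ cube d) : ‖x‖ ≤ d := by
  have h1 : ‖x‖ ^ 2 ≤ d := by
    rw [EuclideanSpace.real_norm_sq_eq]
    refine (Finset.sum_le_card_nsmul _ _ 1 fun i _ => ?_).trans (by simp)
    have := abs_le.1 (hx i); nlinarith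
  have h2 : (d : ℝ) ≤ d ^ 2 := by exact_mod_cast Nat.le_self_pow two_ne_zero d
  exact (pow_le_pow_iff_left₀ (norm_nonneg _) (Nat.cast_nonneg _) two_ne_zero).1 (h1.trans h2)

lemma cube_closed : IsClosed (cube d) := by
  have : cube d = ⋂ i, {x : E d | |x i| ≤ 1} := by ext x; simp [cube]
  rw [this]
  exact isClosed_iInter fun i => isClosed_le (by fun_prop) continuous_const

lemma cube_compact : IsCompact (cube d) :=
  Metric.isCompact_of_isClosed_isBounded cube_closed
    (isBounded_iff_forall_norm_le.2 ⟨d, fun _ hx => cube_norm hx⟩)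

lemma cube_convex : Convex ℝ (cube d) := by
  intro x hx y hy a b ha hb hab i
  have h1 := abs_le.1 (hx i)
  have h2 := abs_le.1 (hy i)
  simp only [PiLp.add_apply, PiLp.smul_apply, smul_eq_mul, abs_le]
  constructor <;> nlinarith

lemma cube_int : (interior (cube d)).Nonempty := by
  refine ⟨0, mem_interior_iff_mem_nhds.2 (mem_of_superset (Metric.closedBall_mem_nhds 0 one_pos) ?_)⟩
  intro x hx i
  rw [mem_closedBall_zero_iff] at hx
  exact le_trans (by simpa using PiLp.norm_apply_le x i) hx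

lemma rho_box (a b : Fin d → ℝ) (ha : ∀ i, -1 ≤ a i) (hab : ∀ i, a i ≤ b i) (hb : ∀ i, b i ≤ 1) :
    (uniformProbOn (cube d)).real {x : E d | ∀ i, x i ∈ Icc (a i) (b i)} =
      ∏ i, (b i - a i) / 2 := by
  have hm : MeasurableSet {x : E d | ∀ i, x i ∈ Icc (a i) (b i)} := by
    have : {x : E d | ∀ i, x i ∈ Icc (a i) (b i)} = ⋂ i, (fun x : E d => x i) ⁻¹' Icc (a i) (b i) := by
      ext x; simp
    rw [this]
    exact MeasurableSet.iInter fun i => measurableSet_Icc.preimage (by fun_prop)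
  have hsub : {x : E d | ∀ i, x i ∈ Icc (a i) (b i)} ⊆ cube d := fun x hx i =>
    abs_le.2 ⟨(ha i).trans (hx i).1, (hx i).2.trans (hb i)⟩
  rw [Measure.real, uniformProbOn, Measure.smul_apply, Measure.restrict_apply hm,
    inter_eq_left.2 hsub, vol_box, cube_eq, vol_box (fun _ => -1) (fun _ => 1), smul_eq_mul,
    ENNReal.toReal_mul, ENNReal.toReal_inv, ENNReal.toReal_prod, ENNReal.toReal_prod,
    Finset.prod_div_distrib, inv_mul_eq_div]
  congr 1
  · exact Finset.prod_congr rfl fun i _ => ENNReal.toReal_ofReal (by linarith [hab i])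
  · exact Finset.prod_congr rfl fun i _ => by norm_num

lemma rho_box2 {i j : Fin d} (hij : i ≠ j) {a b a' b' : ℝ} (ha : -1 ≤ a) (hab : a ≤ b)
    (hb : b ≤ 1) (ha' : -1 ≤ a') (hab' : a' ≤ b') (hb' : b' ≤ 1) :
    (uniformProbOn (cube d)).real {x : E d | x i ∈ Icc a b ∧ x j ∈ Icc a' b'} =
      (b - a) / 2 * ((b' - a') / 2) := by
  have h := rho_box (d := d) (fun k => if k = i then a else if k = j then a' else -1)
    (fun k => if k = i then b else if k = j then b' else 1)
    (fun k => by split_ifs <;> linarith) (fun k => by split_ifs <;> linarith)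
    (fun k => by split_ifs <;> linarith)
  rw [Finset.prod_eq_mul i j hij (by
    intro k _ hk; simp [hk.1, hk.2]) (by simp) (by simp)] at h
  simp only [if_true, hij.symm, if_false] at h
  rw [← h]
  refine measureReal_congr ?_
  have hae : ∀ᵐ x ∂(uniformProbOn (cube d)), x ∈ cube d := by
    unfold uniformProbOn
    exact Measure.ae_smul_measure (ae_restrict_mem cube_closed.measurableSet) _
  filter_upwards [hae] with x hx
  refine propext ⟨fun hh k => ?_, fun hh => ⟨by simpa using hh i, by simpa [hij.symm] using hh j⟩⟩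
  split_ifs with h1 h2
  · rw [h1]; exact hh.1
  · rw [h2]; exact hh.2
  · exact abs_le.1 (hx k)

/-- Reflection of one coordinate. -/
noncomputable def refl1 (j : Fin d) : E d ≃ₗᵢ[ℝ] E d :=
  LinearIsometryEquiv.piLpCongrRight 2 fun i =>
    if i = j then LinearIsometryEquiv.neg ℝ else LinearIsometryEquiv.refl ℝ ℝ

lemma refl1_apply (j : Fin d) (x : E d) (i : Fin d) :
    refl1 j x i = if i = j then -x i else x i := by
  by_cases h : i = j <;> simp [refl1, h]

lemma rho_refl (j : Fin d) {A : Set (E d)} (hA : MeasurableSet A) :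
    uniformProbOn (cube d) (refl1 j ⁻¹' A) = uniformProbOn (cube d) A := by
  have hc : refl1 j ⁻¹' cube d = cube d := by
    ext x
    simp only [cube, mem_preimage, mem_ofPred_eq, refl1_apply]
    refine forall_congr' fun i => ?_
    split_ifs <;> simp
  unfold uniformProbOn
  rw [Measure.smul_apply, Measure.smul_apply,
    Measure.restrict_apply (hA.preimage (refl1 j).continuous.measurable), Measure.restrict_apply hA]
  congr 1
  conv_lhs => rw [← hc, ← preimage_inter]
  exact (refl1 j).measurePreserving.measure_preimage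
    (hA.inter cube_closed.measurableSet).nullMeasurableSet

end Crest.Agent.H0082
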