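import Crest.Agent.H0082.Sharp

/-! The three-atom example. -/

set_option autoImplicit false

namespace Crest.Agent.H0082

open MeasureTheory Set Filter Topology Crest.AnalysisR.OT ProbabilityTheory
open scoped ENNReal NNReal RealInnerProductSpace

variable {d : ℕ}

/-- three atoms -/
noncomputable def atoms (i j : Fin d) (t : ℝ) : Fin 3 → E d :=
  ![EuclideanSpace.single i (-1), EuclideanSpace.single j t, EuclideanSpace.single i 1]

lemma mem_lag_atoms (i j : Fin d) (t s : ℝ) (x : E d) (k : Fin 3) :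
    x ∈ Lag (atoms i j t) ![s, 0, s] k ↔ ∀ l : Fin 3,
      ![-x i - s, t * x j, x i - s] l ≤ ![-x i - s, t * x j, x i - s] k := by
  have e : ∀ l : Fin 3, ⟪x, atoms i j t l⟫ - ![s, 0, s] l = ![-x i - s, t * x j, x i - s] l := by
    intro l
    fin_cases l <;> simp [atoms, EuclideanSpace.inner_single_right]
  simp only [Lag, mem_ofPred_eq, e]

lemma atoms_inj {i j : Fin d} (hij : i ≠ j) (t : ℝ) : Function.Injective (atoms i j t) := by
  have e : ∀ l : Fin 3, atoms i j t l i = ![-1, 0, 1] l := by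
    intro l
    fin_cases l <;> simp [atoms, hij]
  intro k l hkl
  have h := congrArg (fun v : E d => v i) hkl
  simp only [e] at h
  fin_cases k <;> fin_cases l <;> simp at h ⊢ <;> norm_num at h

lemma atoms_cube (i j : Fin d) {t : ℝ} (ht : |t| ≤ 1) (k : Fin 3) : atoms i j t k ∈ cube d := by
  intro l
  fin_cases k <;> simp [atoms, PiLp.single_apply] <;> split_ifs <;> simp [ht]

lemma lag_refl {i j : Fin d} (hij : i ≠ j) (s : ℝ) (k : Fin 3) :
    refl1 j ⁻¹' Lag (atoms i j s) ![s, 0, s] k = Lag (atoms i j (-s)) ![s, 0, s] k := by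
  ext x
  rw [mem_preimage, mem_lag_atoms, mem_lag_atoms]
  simp [refl1_apply, hij]

theorem sharp (hd : 2 ≤ d) {s : ℝ} (hs : 0 < s) (hs1 : s ≤ 1 / 4) :
    ∃ μ ν : Measure (E d), IsProbabilityOn (cube d) μ ∧ IsProbabilityOn (cube d) ν ∧
      IsThreeAtomic μ ∧ IsThreeAtomic ν ∧ (∃ T, IsOptimalMap (uniformProbOn (cube d)) μ T) ∧
      (∃ T, IsOptimalMap (uniformProbOn (cube d)) ν T) ∧
      ∀ T S : E d → E d, IsOptimalMap (uniformProbOn (cube d)) μ T →
        IsOptimalMap (uniformProbOn (cube d)) ν S →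
        ∃ π : Measure (E d × E d), IsPairCoupling μ ν π ∧
          quadCost π ≤ ENNReal.ofReal (8 * s ^ 3) ∧
          ENNReal.ofReal (s / 8) ≤ ∫⁻ x, ‖T x - S x‖ₑ ^ 2 ∂(uniformProbOn (cube d)) := by
  set i : Fin d := ⟨0, by omega⟩
  set j : Fin d := ⟨1, by omega⟩
  have hij : i ≠ j := by simp [i, j]
  set ρ := uniformProbOn (cube d) with hρ
  have hKR : ∀ x ∈ cube d, ‖x‖ ≤ d + 1 := fun x hx => by linarith [cube_norm hx]
  have hYR : ∀ x ∈ cube d, ‖x‖ + 1 ≤ d + 1 := fun x hx => by linarith [cube_norm hx]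
  have h : Src ρ (d + 1) := src_uniform cube_compact cube_convex cube_int (by positivity) hKR
  have := h.prob
  obtain ⟨c, -, hK⟩ := shrink_uniform (d := d) cube_compact cube_convex cube_int
  set y := atoms i j s with hy
  set z := atoms i j (-s) with hz
  set ψ : Fin 3 → ℝ := ![s, 0, s] with hψ
  set m : Fin 3 → ℝ := fun k => ρ.real (Lag y ψ k) with hm
  have s1 : Sol ρ y m ψ := fun k => rfl
  have s2 : Sol ρ z m ψ := fun k => by
    simp only [hm, hz, hψ, hy, Measure.real]
    rw [← lag_refl hij, hρ, rho_refl j (lag_meas _ _ _)]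
  have hyi : Function.Injective y := atoms_inj hij _
  have hzi : Function.Injective z := atoms_inj hij _
  have hyc : ∀ k, y k ∈ cube d := atoms_cube i j (by rw [abs_le]; constructor <;> linarith)
  have hzc : ∀ k, z k ∈ cube d := atoms_cube i j (by rw [abs_le]; constructor <;> linarith)
  have o1 := Smap_opt h hyi (fun k => hKR _ (hyc k)) s1
  have o2 := Smap_opt h hzi (fun k => hKR _ (hzc k)) s2
  have B1 : {x : E d | x i ∈ Icc (s / 2) (3 * s / 2) ∧ x j ∈ Icc (1 / 2 : ℝ) 1} ⊆ Lag y ψ 1 := by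
    rintro x ⟨⟨h1, h2⟩, h3, h4⟩
    rw [mem_lag_atoms]
    intro l
    fin_cases l <;> simp <;> nlinarith
  have B2 : {x : E d | x i ∈ Icc (s / 2) (3 * s / 2) ∧ x j ∈ Icc (1 / 2 : ℝ) 1} ⊆ Lag z ψ 2 := by
    rintro x ⟨⟨h1, h2⟩, h3, h4⟩
    rw [mem_lag_atoms]
    intro l
    fin_cases l <;> simp <;> nlinarith
  have vB : ρ.real {x : E d | x i ∈ Icc (s / 2) (3 * s / 2) ∧ x j ∈ Icc (1 / 2 : ℝ) 1} = s / 8 := by
    rw [rho_box2 hij (by linarith) (by linarith) (by linarith) (by linarith) (by linarith)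
      (by linarith)]; ring
  have hm0 : ∀ k, 0 < m k := by
    intro k
    fin_cases k
    · have B0 : {x : E d | x i ∈ Icc (-1 : ℝ) (-1 / 2) ∧ x j ∈ Icc (-1 : ℝ) 1} ⊆ Lag y ψ 0 := by
        rintro x ⟨⟨h1, h2⟩, h3, h4⟩
        rw [mem_lag_atoms]
        intro l
        fin_cases l <;> simp <;> nlinarith
      refine lt_of_lt_of_le ?_ (measureReal_mono B0)
      rw [rho_box2 hij (by linarith) (by linarith) (by linarith) (by linarith) (by linarith)
        (by linarith)]; norm_num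
    · refine lt_of_lt_of_le ?_ (measureReal_mono B1)
      rw [vB]; positivity
    · have B0 : {x : E d | x i ∈ Icc (1 / 2 : ℝ) 1 ∧ x j ∈ Icc (-1 : ℝ) 1} ⊆ Lag y ψ 2 := by
        rintro x ⟨⟨h1, h2⟩, h3, h4⟩
        rw [mem_lag_atoms]
        intro l
        fin_cases l <;> simp <;> nlinarith
      refine lt_of_lt_of_le ?_ (measureReal_mono B0)
      rw [rho_box2 hij (by linarith) (by linarith) (by linarith) (by linarith) (by linarith)
        (by linarith)]; norm_num
  have hae : ∀ᵐ x ∂ρ, x ∈ cube d := by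
    rw [hρ]; unfold uniformProbOn
    exact Measure.ae_smul_measure (ae_restrict_mem cube_closed.measurableSet) _
  have hm1 : m 1 ≤ 2 * s := by
    have v : ρ.real {x : E d | x i ∈ Icc (-(2 * s)) (2 * s) ∧ x j ∈ Icc (-1 : ℝ) 1} = 2 * s := by
      rw [rho_box2 hij (by linarith) (by linarith) (by linarith) (by linarith) (by linarith)
        (by linarith)]; ring
    rw [← v]
    refine ENNReal.toReal_mono (measure_ne_top _ _) (measure_mono_ae ?_)
    filter_upwards [hae] with x hx hx1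
    have h1 := (mem_lag_atoms i j s s x 1).1 hx1
    have h2 := h1 0
    have h3 := h1 2
    have h4 := abs_le.1 (hx j)
    simp at h2 h3
    exact ⟨⟨by nlinarith, by nlinarith⟩, h4⟩
  have a1 := ae_atoms y (fun k => ENNReal.ofReal (m k)) hyc
  have a2 := ae_atoms z (fun k => ENNReal.ofReal (m k)) hzc
  refine ⟨_, _, ⟨o1.2.1 ▸ Measure.isProbabilityMeasure_map o1.1.aemeasurable, a1⟩,
    ⟨o2.2.1 ▸ Measure.isProbabilityMeasure_map o2.1.aemeasurable, a2⟩, ⟨y, hyi, m, hm0, rfl⟩,
    ⟨z, hzi, m, hm0, rfl⟩, ⟨_, o1⟩, ⟨_, o2⟩, fun T S hT hS => ?_⟩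
  have u1 := opt_unique h (by omega) hK hKR cube_compact hYR a1 hT o1
  have u2 := opt_unique h (by omega) hK hKR cube_compact hYR a2 hS o2
  refine ⟨∑ k, ENNReal.ofReal (m k) • Measure.dirac (y k, z k), ⟨?_, ?_⟩, ?_, ?_⟩
  · rw [Measure.map_finset_sum' measurable_fst.aemeasurable]
    simp [Measure.map_smul]
  · rw [Measure.map_finset_sum' measurable_snd.aemeasurable]
    simp [Measure.map_smul]
  · rw [quadCost, lintegral_finsetSum_measure, Fin.sum_univ_three]
    simp only [lintegral_smul_measure, lintegral_dirac]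
    have e0 : y 0 - z 0 = 0 := by simp [hy, hz, atoms]
    have e2 : y 2 - z 2 = 0 := by simp [hy, hz, atoms]
    have e1 : ‖y 1 - z 1‖ = 2 * s := by
      have : y 1 - z 1 = EuclideanSpace.single j (2 * s) := by
        ext l; simp [hy, hz, atoms, PiLp.single_apply]; split_ifs <;> ring
      rw [this]; simp [abs_of_pos hs]
    rw [e0, e2, ← ofReal_norm (y 1 - z 1), e1, ← ENNReal.ofReal_pow (by positivity)]
    simp only [enorm_zero, ne_eq, OfNat.ofNat_ne_zero, not_false_eq_true, zero_pow,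
      zero_add, add_zero, smul_eq_mul, mul_zero]
    rw [← ENNReal.ofReal_mul (hm0 1).le]
    refine ENNReal.ofReal_le_ofReal ?_
    nlinarith [mul_le_mul_of_nonneg_right hm1 (sq_nonneg (2 * s))]
  · rw [← vB, ofReal_measureReal, ← lintegral_indicator_one]
    · refine lintegral_mono_ae ?_
      filter_upwards [u1, u2, Smap_ae h hyi ψ, Smap_ae h hzi ψ] with x h1 h2 h3 h4
      by_cases hx : x ∈ {x : E d | x i ∈ Icc (s / 2) (3 * s / 2) ∧ x j ∈ Icc (1 / 2 : ℝ) 1}
      · rw [indicator_of_mem hx, h1, h2, h3 1 (B1 hx), h4 2 (B2 hx), ← ofReal_norm,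
          ← ENNReal.ofReal_pow (norm_nonneg _)]
        have h5 : 1 ≤ ‖y 1 - z 2‖ := by
          refine le_trans ?_ (PiLp.norm_apply_le _ i)
          simp [hy, hz, atoms, hij]
        exact ENNReal.one_le_ofReal.2 (one_le_pow₀ h5)
      · rw [indicator_of_notMem hx]; exact zero_le
    · exact (measurableSet_Icc.preimage (by fun_prop : Measurable fun x : E d => x i)).inter
        (measurableSet_Icc.preimage (by fun_prop : Measurable fun x : E d => x j))

lemma exists_small {α : ℝ} (hα : 1 / 3 < α) (C : ℝ) :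
    ∃ s : ℝ, 0 < s ∧ s ≤ 1 / 4 ∧ C * (8 * s ^ 3) ^ α < s / 8 := by
  have h1 : Tendsto (fun s : ℝ => C * 8 ^ α * s ^ (3 * α - 1)) (𝓝[>] 0) (𝓝 (C * 8 ^ α * 0)) := by
    refine Tendsto.const_mul _ ?_
    have := (Real.continuousAt_rpow_const 0 (3 * α - 1) (Or.inr (by linarith))).tendsto
    rw [Real.zero_rpow (by linarith)] at this
    exact this.mono_left nhdsWithin_le_nhds
  rw [mul_zero] at h1
  obtain ⟨s, h2, h3⟩ := ((h1.eventually (gt_mem_nhds (show (0 : ℝ) < 1 / 8 by norm_num))).and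
    (Ioc_mem_nhdsGT (show (0 : ℝ) < 1 / 4 by norm_num))).exists
  refine ⟨s, h3.1, h3.2, ?_⟩
  have hs := h3.1
  have e : (8 * s ^ 3) ^ α = 8 ^ α * s ^ (3 * α - 1) * s := by
    rw [Real.mul_rpow (by norm_num) (by positivity), ← Real.rpow_natCast, ← Real.rpow_mul hs.le,
      mul_assoc, ← Real.rpow_add_one hs.ne']
    norm_num
  rw [e]
  nlinarith

end Crest.Agent.H0082
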