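import Crest.Agent.H0082.PL
import Crest.Prelude.Def_QuadraticTransport

/-! The source measure: the properties of the uniform measure on a convex body that are used. -/

set_option autoImplicit false

namespace Crest.Agent.H0082

open MeasureTheory Set Crest.AnalysisR.OT
open scoped ENNReal NNReal

abbrev E (d : ℕ) := EuclideanSpace ℝ (Fin d)

variable {d : ℕ}

/-- The properties of the source measure. -/
structure Src (ρ : Measure (E d)) (R : ℝ) : Prop where
  prob : IsProbabilityMeasure ρ
  pos : 0 < R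
  ball : ∀ᵐ x ∂ρ, ‖x‖ ≤ R
  pl : PL ρ (fun x y => (1 / 2 : ℝ) • (x + y))
  ac : ρ ≪ volume

lemma PL.restrict {α : Type*} [MeasurableSpace α] {μ : Measure α} {m : α → α → α} (h : PL μ m)
    {K : Set α} (hK : MeasurableSet K) (hm : ∀ x ∈ K, ∀ y ∈ K, m x y ∈ K) :
    PL (μ.restrict K) m := by
  intro f g k hf hg hk H
  rw [← lintegral_indicator hK, ← lintegral_indicator hK, ← lintegral_indicator hK]
  refine h _ _ _ (hf.indicator hK) (hg.indicator hK) (hk.indicator hK) fun x y => ?_
  by_cases hx : x ∈ K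
  · by_cases hy : y ∈ K
    · rw [indicator_of_mem hx, indicator_of_mem hy, indicator_of_mem (hm x hx y hy)]
      exact H x y
    · simp [hy]
  · simp [hx]

lemma PL.smul {α : Type*} [MeasurableSpace α] {μ : Measure α} {m : α → α → α} (h : PL μ m)
    (c : ℝ≥0∞) : PL (c • μ) m := by
  intro f g k hf hg hk H
  simp only [lintegral_smul_measure, smul_eq_mul]
  rw [mul_pow, mul_mul_mul_comm, sq c]
  gcongr
  exact h f g k hf hg hk H

lemma src_uniform {K : Set (E d)} (hKc : IsCompact K) (hKv : Convex ℝ K)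
    (hKi : (interior K).Nonempty) {R : ℝ} (hR : 0 < R) (hKR : ∀ x ∈ K, ‖x‖ ≤ R) :
    Src (uniformProbOn K) R := by
  have h0 : volume K ≠ 0 := (Measure.measure_pos_of_nonempty_interior _ hKi).ne'
  have h1 : volume K ≠ ⊤ := hKc.measure_lt_top.ne
  refine ⟨⟨?_⟩, hR, ?_, ?_, ?_⟩
  · simp [uniformProbOn, ENNReal.inv_mul_cancel h0 h1]
  · unfold uniformProbOn
    refine Measure.ae_smul_measure ?_ _
    exact (ae_restrict_iff' hKc.measurableSet).2 (Filter.Eventually.of_forall hKR)
  · refine PL.smul ((pl_euclid d).restrict hKc.measurableSet fun x hx y hy => ?_) _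
    have := hKv hx hy (a := 1 / 2) (b := 1 / 2) (by norm_num) (by norm_num) (by norm_num)
    rwa [← smul_add] at this
  · unfold uniformProbOn
    exact (Measure.smul_absolutelyContinuous).trans Measure.absolutelyContinuous_restrict

lemma Src.integrable {ρ : Measure (E d)} {R : ℝ} (h : Src ρ R) {F : Type*} [NormedAddCommGroup F]
    {f : E d → F} (hf : Continuous f) : Integrable f ρ := by
  have := h.prob
  obtain ⟨M, hM⟩ := (isCompact_closedBall (0 : E d) R).exists_bound_of_continuousOn hf.continuousOn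
  refine Integrable.of_bound hf.aestronglyMeasurable M ?_
  filter_upwards [h.ball] with x hx
  exact hM x (by simpa using hx)

/-- Real-valued, set-localised form of Prékopa–Leindler. -/
lemma Src.pl_real {ρ : Measure (E d)} {R : ℝ} (h : Src ρ R) {A B C : Set (E d)}
    (hA : MeasurableSet A) (hB : MeasurableSet B) (hC : MeasurableSet C)
    (hm : ∀ x ∈ A, ∀ y ∈ B, (1 / 2 : ℝ) • (x + y) ∈ C) {f g k : E d → ℝ}
    (hf : Continuous f) (hg : Continuous g) (hk : Continuous k)
    (hf0 : ∀ x, 0 ≤ f x) (hg0 : ∀ x, 0 ≤ g x) (hk0 : ∀ x, 0 ≤ k x)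
    (H : ∀ x y, ‖x‖ ≤ R → ‖y‖ ≤ R → f x * g y ≤ k ((1 / 2 : ℝ) • (x + y)) ^ 2) :
    (∫ x in A, f x ∂ρ) * (∫ x in B, g x ∂ρ) ≤ (∫ x in C, k x ∂ρ) ^ 2 := by
  set D : Set (E d) := {x | ‖x‖ ≤ R} with hD
  have hDm : MeasurableSet D := measurableSet_le (by fun_prop) (by fun_prop)
  have e : ∀ {S : Set (E d)} (_ : MeasurableSet S) {w : E d → ℝ} (_ : Continuous w)
      (_ : ∀ x, 0 ≤ w x), ENNReal.ofReal (∫ x in S, w x ∂ρ) =
        ∫⁻ x, (S ∩ D).indicator (fun x => ENNReal.ofReal (w x)) x ∂ρ := by
    intro S hS w hw hw0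
    rw [ofReal_integral_eq_lintegral_ofReal (h.integrable hw).integrableOn
      (Filter.Eventually.of_forall hw0), ← lintegral_indicator hS]
    refine lintegral_congr_ae ?_
    filter_upwards [h.ball] with x hx
    by_cases hxS : x ∈ S
    · rw [indicator_of_mem hxS, indicator_of_mem (show x ∈ S ∩ D from ⟨hxS, hx⟩)]
    · rw [indicator_of_notMem hxS, indicator_of_notMem (fun h => hxS h.1)]
  have key := h.pl ((A ∩ D).indicator fun x => ENNReal.ofReal (f x))
    ((B ∩ D).indicator fun x => ENNReal.ofReal (g x))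
    ((C ∩ D).indicator fun x => ENNReal.ofReal (k x))
    (Measurable.indicator (by fun_prop) (hA.inter hDm))
    (Measurable.indicator (by fun_prop) (hB.inter hDm))
    (Measurable.indicator (by fun_prop) (hC.inter hDm)) (by
      intro x y
      by_cases hx : x ∈ A ∩ D
      · by_cases hy : y ∈ B ∩ D
        · have hmid : (1 / 2 : ℝ) • (x + y) ∈ C ∩ D := by
            refine ⟨hm x hx.1 y hy.1, ?_⟩
            have h1 : ‖x‖ ≤ R := hx.2
            have h2 : ‖y‖ ≤ R := hy.2
            show ‖(1 / 2 : ℝ) • (x + y)‖ ≤ R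
            rw [norm_smul]
            have := norm_add_le x y
            simp only [one_div, norm_inv, Real.norm_ofNat]
            linarith
          rw [indicator_of_mem hx, indicator_of_mem hy, indicator_of_mem hmid,
            ← ENNReal.ofReal_mul (hf0 x), ← ENNReal.ofReal_pow (hk0 _)]
          exact ENNReal.ofReal_le_ofReal (H x y hx.2 hy.2)
        · rw [indicator_of_notMem hy]; simp
      · rw [indicator_of_notMem hx]; simp)
  rw [← e hA hf hf0, ← e hB hg hg0, ← e hC hk hk0,
    ← ENNReal.ofReal_mul (integral_nonneg hf0), ← ENNReal.ofReal_pow (integral_nonneg hk0)] at key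
  exact (ENNReal.ofReal_le_ofReal_iff (sq_nonneg _)).1 key

end Crest.Agent.H0082
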